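import Mathlib

/-!
# P296: Hermitian quadratic functions

A real function on a complex vector space is Hermitian quadratic if its polarization is a Hermitian
form giving it back. The identities are linear in the function, so they pass to sums, averages and
pointwise limits.
-/

noncomputable section

namespace Vale.Agent.P296.Analysis

open Filter Topology
open scoped ComplexConjugate

universe u

variable {V : Type u} [AddCommGroup V] [Module ℂ V]

/-- The polarization, conjugate linear in the first variable. -/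
def pol (q : V → ℝ) (v w : V) : ℂ :=
  ((((q (v + w) - q (v - w)) : ℝ) : ℂ)
    - Complex.I * (((q (v + Complex.I • w) - q (v - Complex.I • w)) : ℝ) : ℂ)) / 4

/-- `q v = B v v` for the Hermitian form `B = pol q`. -/
structure IsHermSq (q : V → ℝ) : Prop where
  add : ∀ u v w, pol q u (v + w) = pol q u v + pol q u w
  smul : ∀ (c : ℂ) u v, pol q u (c • v) = c * pol q u v
  symm : ∀ u v, pol q v u = conj (pol q u v)
  diag : ∀ v, pol q v v = q v

/-- The square of a Hermitian form is Hermitian quadratic, with the form as polarization. -/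
theorem isHermSq_of_form {B : V → V → ℂ} (hadd : ∀ u v w, B u (v + w) = B u v + B u w)
    (hsmul : ∀ (c : ℂ) u v, B u (c • v) = c * B u v) (hsymm : ∀ u v, B v u = conj (B u v)) :
    IsHermSq (fun v => (B v v).re) ∧ pol (fun v => (B v v).re) = B := by
  have hl : ∀ u v w, B (u + v) w = B u w + B v w := fun u v w => by
    rw [hsymm w (u + v), hadd, map_add, ← hsymm, ← hsymm]
  have hls : ∀ (c : ℂ) u v, B (c • u) v = conj c * B u v := fun c u v => by
    rw [hsymm v (c • u), hsmul, map_mul, ← hsymm]
  have hnr : ∀ u v, B u (-v) = -B u v := fun u v => by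
    rw [← neg_one_smul ℂ v, hsmul, neg_one_mul]
  have hnl : ∀ u v, B (-u) v = -B u v := fun u v => by
    rw [← neg_one_smul ℂ u, hls, map_neg, map_one, neg_one_mul]
  have hpol : pol (fun v => (B v v).re) = B := by
    funext v w
    simp only [pol, sub_eq_add_neg, hadd, hl, hnr, hnl, hsmul, hls, Complex.conj_I]
    rw [hsymm v w]
    apply Complex.ext <;>
    · simp
      ring
  refine ⟨⟨by rw [hpol]; exact hadd, by rw [hpol]; exact hsmul, by rw [hpol]; exact hsymm,
    fun v => ?_⟩, hpol⟩
  rw [hpol]
  refine Complex.ext rfl ?_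
  have := congrArg Complex.im (hsymm v v)
  rw [Complex.conj_im] at this
  rw [Complex.ofReal_im]
  linarith

/-- Pointwise limits of Hermitian quadratic functions are Hermitian quadratic. -/
theorem IsHermSq.of_tendsto {α : Type*} {l : Filter α} [l.NeBot] {q : α → V → ℝ} {Q : V → ℝ}
    (h : ∀ a, IsHermSq (q a)) (ht : ∀ v, Tendsto (fun a => q a v) l (𝓝 (Q v))) : IsHermSq Q := by
  have hp : ∀ u v, Tendsto (fun a => pol (q a) u v) l (𝓝 (pol Q u v)) := fun u v => by
    have hc : ∀ x, Tendsto (fun a => ((q a x : ℝ) : ℂ)) l (𝓝 (Q x : ℂ)) := fun x =>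
      (Complex.continuous_ofReal.tendsto _).comp (ht x)
    simp only [pol, Complex.ofReal_sub]
    exact (((hc _).sub (hc _)).sub (((hc _).sub (hc _)).const_mul _)).div_const _
  refine ⟨fun u v w => tendsto_nhds_unique ((hp u (v + w)).congr fun a => (h a).add u v w)
      ((hp u v).add (hp u w)),
    fun c u v => tendsto_nhds_unique ((hp u (c • v)).congr fun a => (h a).smul c u v)
      ((hp u v).const_mul c),
    fun u v => tendsto_nhds_unique ((hp v u).congr fun a => (h a).symm u v)
      ((Complex.continuous_conj.tendsto _).comp (hp u v)),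
    fun v => tendsto_nhds_unique ((hp v v).congr fun a => (h a).diag v)
      ((Complex.continuous_ofReal.tendsto _).comp (ht v))⟩

lemma pol_add_fun (q₁ q₂ : V → ℝ) (u v : V) :
    pol (fun x => q₁ x + q₂ x) u v = pol q₁ u v + pol q₂ u v := by
  simp only [pol]; push_cast; ring

lemma pol_const_mul (c : ℝ) (q : V → ℝ) (u v : V) :
    pol (fun x => c * q x) u v = (c : ℂ) * pol q u v := by
  simp only [pol]; push_cast; ring

theorem IsHermSq.add_fun {q₁ q₂ : V → ℝ} (h₁ : IsHermSq q₁) (h₂ : IsHermSq q₂) :
    IsHermSq fun x => q₁ x + q₂ x := by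
  refine ⟨fun u v w => ?_, fun c u v => ?_, fun u v => ?_, fun v => ?_⟩
  · simp only [pol_add_fun, h₁.add, h₂.add]; ring
  · simp only [pol_add_fun, h₁.smul, h₂.smul]; ring
  · simp only [pol_add_fun, h₁.symm u v, h₂.symm u v, map_add]
  · simp only [pol_add_fun, h₁.diag, h₂.diag, Complex.ofReal_add]

theorem IsHermSq.const_mul {q : V → ℝ} (h : IsHermSq q) (c : ℝ) :
    IsHermSq fun x => c * q x := by
  refine ⟨fun u v w => ?_, fun a u v => ?_, fun u v => ?_, fun v => ?_⟩
  · simp only [pol_const_mul, h.add]; ring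
  · simp only [pol_const_mul, h.smul]; ring
  · simp only [pol_const_mul, h.symm u v, map_mul, Complex.conj_ofReal]
  · simp only [pol_const_mul, h.diag, Complex.ofReal_mul]

/-- The zero function. -/
theorem isHermSq_zero : IsHermSq fun _ : V => (0 : ℝ) := by
  constructor <;> simp [pol]

/-- Circle averages of Hermitian quadratic functions are Hermitian quadratic. -/
theorem IsHermSq.circleAverage {q : ℂ → V → ℝ} {c : ℂ} {R : ℝ} (h : ∀ z, IsHermSq (q z))
    (hi : ∀ v, CircleIntegrable (fun z => q z v) c R) :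
    IsHermSq fun v => Real.circleAverage (fun z => q z v) c R := by
  have hc : ∀ v, CircleIntegrable (fun z => ((q z v : ℝ) : ℂ)) c R := fun v =>
    ⟨(hi v).1.ofReal, (hi v).2.ofReal⟩
  set A : (ℂ → ℂ) → ℂ := fun g => Real.circleAverage g c R with hA
  have hs2 : ∀ f g : ℂ → ℂ, CircleIntegrable f c R → CircleIntegrable g c R →
      CircleIntegrable (fun z => f z - g z) c R := fun f g hf hg => hf.sub hg
  have hm2 : ∀ (a : ℂ) (g : ℂ → ℂ), CircleIntegrable g c R →
      CircleIntegrable (fun z => a * g z) c R := fun a g hg => IntervalIntegrable.const_mul hg a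
  have hsub : ∀ x y, CircleIntegrable (fun z => ((q z x : ℝ) : ℂ) - (q z y : ℂ)) c R := fun x y =>
    hs2 _ _ (hc x) (hc y)
  have hof : ∀ v, A (fun z => (q z v : ℂ)) = ((Real.circleAverage (fun z => q z v) c R : ℝ) : ℂ) :=
    fun v => by
    simp only [hA, Real.circleAverage, intervalIntegral.integral_ofReal, Complex.real_smul,
      smul_eq_mul, Complex.ofReal_mul]
  have hpi : ∀ u v, CircleIntegrable (fun z => pol (q z) u v) c R := fun u v => by
    simp only [pol, Complex.ofReal_sub, div_eq_inv_mul]
    exact hm2 _ _ (hs2 _ _ (hsub _ _) (hm2 Complex.I _ (hsub _ _)))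
  have hp : ∀ u v, pol (fun v => Real.circleAverage (fun z => q z v) c R) u v
      = A fun z => pol (q z) u v := fun u v => by
    have h1 : ∀ x y, A (fun z => (q z x : ℂ) - (q z y : ℂ)) = A (fun z => (q z x : ℂ))
        - A (fun z => (q z y : ℂ)) := fun x y => Real.circleAverage_fun_sub (hc x) (hc y)
    simp only [pol, Complex.ofReal_sub, ← hof, ← h1]
    simp only [hA, div_eq_inv_mul]
    simp only [← smul_eq_mul]
    rw [Real.circleAverage_fun_smul, Real.circleAverage_fun_sub (hsub _ _)
      (by simpa only [smul_eq_mul] using hm2 Complex.I _ (hsub _ _)), Real.circleAverage_fun_smul]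
  refine ⟨fun u v w => ?_, fun a u v => ?_, fun u v => ?_, fun v => ?_⟩
  · simp only [hp, (h _).add]
    exact Real.circleAverage_fun_add (hpi u v) (hpi u w)
  · simp only [hp, (h _).smul]
    simp only [hA, ← smul_eq_mul]
    exact Real.circleAverage_fun_smul
  · simp only [hp]
    rw [funext fun z => (h z).symm u v]
    simp only [hA, Real.circleAverage, intervalIntegral.intervalIntegral_conj, Complex.real_smul,
      map_mul, Complex.conj_ofReal]
  · simp only [hp, (h _).diag, hof]

variable {q : V → ℝ}

lemma IsHermSq.pol_zero_right (h : IsHermSq q) (u : V) : pol q u 0 = 0 := by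
  have := h.smul 0 u 0
  rwa [zero_smul, zero_mul] at this

lemma IsHermSq.pol_smul_left (h : IsHermSq q) (c : ℂ) (u v : V) :
    pol q (c • u) v = conj c * pol q u v := by
  rw [h.symm v (c • u), h.smul, map_mul, ← h.symm]

lemma IsHermSq.pol_add_left (h : IsHermSq q) (u v w : V) :
    pol q (u + v) w = pol q u w + pol q v w := by
  rw [h.symm w (u + v), h.add, map_add, ← h.symm, ← h.symm]

/-- Scaling. -/
lemma IsHermSq.apply_smul (h : IsHermSq q) (c : ℂ) (v : V) :
    q (c • v) = ‖c‖ ^ 2 * q v := by
  have := h.diag (c • v)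
  rw [h.smul, h.pol_smul_left, h.diag, ← mul_assoc, Complex.mul_conj'] at this
  exact_mod_cast this.symm

lemma IsHermSq.apply_zero (h : IsHermSq q) : q 0 = 0 := by
  have := h.diag 0
  rw [h.pol_zero_right] at this
  exact_mod_cast this.symm

/-- The expansion of a square. -/
lemma IsHermSq.expand (h : IsHermSq q) (v w : V) :
    q (v + w) = q v + 2 * (pol q v w).re + q w := by
  have := congrArg Complex.re (h.diag (v + w))
  rw [h.add, h.pol_add_left, h.pol_add_left, h.diag, h.diag, h.symm v w] at this
  simp only [Complex.add_re, Complex.ofReal_re, Complex.conj_re] at this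
  linarith

/-- The expansion along a complex line. -/
lemma IsHermSq.expand_smul (h : IsHermSq q) (c : ℂ) (v w : V) :
    q (v + c • w) = q v + 2 * (c * pol q v w).re + ‖c‖ ^ 2 * q w := by
  rw [h.expand, h.smul, h.apply_smul]

/-- Cauchy-Schwarz. -/
lemma IsHermSq.cauchy_schwarz (h : IsHermSq q) (hpos : ∀ v, 0 ≤ q v) (v w : V) :
    ‖pol q v w‖ ^ 2 ≤ q v * q w := by
  set b := pol q v w
  by_contra hlt
  push Not at hlt
  have key : ∀ t : ℝ, 0 ≤ q v - 2 * t * ‖b‖ ^ 2 + t ^ 2 * ‖b‖ ^ 2 * q w := fun t => by
    have h1 := hpos (v + (-(t : ℂ) * conj b) • w)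
    rw [h.expand_smul, neg_mul, neg_mul, mul_assoc, Complex.conj_mul', Complex.neg_re,
      ← Complex.ofReal_pow, ← Complex.ofReal_mul, Complex.ofReal_re, norm_neg, norm_mul,
      Complex.norm_real, Complex.norm_conj, Real.norm_eq_abs, mul_pow, sq_abs] at h1
    linarith
  rcases (hpos w).eq_or_lt with hw | hw
  · rw [← hw, mul_zero] at hlt
    have h1 := key ((q v + 1) / (2 * ‖b‖ ^ 2))
    rw [← hw, mul_zero, add_zero,
      show 2 * ((q v + 1) / (2 * ‖b‖ ^ 2)) * ‖b‖ ^ 2 = q v + 1 by
        generalize ‖b‖ ^ 2 = X at hlt ⊢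
        field_simp] at h1
    linarith
  · have h1 := key (1 / q w)
    field_simp at h1
    nlinarith

/-- A null vector is orthogonal to everything. -/
lemma IsHermSq.pol_eq_zero (h : IsHermSq q) (hpos : ∀ v, 0 ≤ q v) {v : V} (hv : q v = 0) (w : V) :
    pol q v w = 0 := by
  have := h.cauchy_schwarz hpos v w
  rw [hv, zero_mul] at this
  simpa using le_antisymm this (sq_nonneg _)

/-- Adding a null vector changes nothing. -/
lemma IsHermSq.apply_add_null (h : IsHermSq q) (hpos : ∀ v, 0 ≤ q v) {v : V} (hv : q v = 0)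
    (w : V) : q (v + w) = q w := by
  rw [h.expand, hv, h.pol_eq_zero hpos hv, Complex.zero_re]
  ring

end Vale.Agent.P296.Analysis
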