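import Mathlib

/-!
# P296: functions with vanishing conjugate first circle moment

A measurable locally bounded function with the mean value property and vanishing first moment
`∫ (w - z) f w` on all small circles is holomorphic: a radial mollifier does not change it, so it is
smooth, and the first Taylor term gives the Cauchy-Riemann equation.
-/

noncomputable section

namespace Vale.Agent.P296.Analysis

open MeasureTheory Metric Real Set Filter Topology
open scoped ComplexConjugate Convolution Interval

/-- A quadratic inequality in all real parameters gives equality of the linear terms. -/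
lemma eq_of_quadratic_le {a x X y Y : ℝ}
    (h : ∀ t : ℝ, a + 2 * t * x + t ^ 2 * y ≤ a + 2 * t * X + t ^ 2 * Y) : x = X := by
  by_contra hne
  set d := X - x with hd
  have hd0 : d ≠ 0 := sub_ne_zero.2 (Ne.symm hne)
  set c := |Y - y| + 1 with hc
  have hc0 : 0 < c := by positivity
  have h1 := h (-d / c)
  have h2 : (Y - y) ≤ c := by have := le_abs_self (Y - y); linarith
  have h3 : 0 ≤ 2 * (-d / c) * d + (-d / c) ^ 2 * (Y - y) := by
    rw [hd] at *; nlinarith
  have h4 : (-d / c) ^ 2 * (Y - y) ≤ (-d / c) ^ 2 * c :=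
    mul_le_mul_of_nonneg_left h2 (sq_nonneg _)
  have h5 : 2 * (-d / c) * d + (-d / c) ^ 2 * c = -(d ^ 2 / c) := by
    field_simp
    ring
  have h6 : 0 < d ^ 2 / c := by positivity
  linarith

/-- A complex number is determined by the real parts of two rotations. -/
lemma eq_of_re_eq {m z : ℂ} (h1 : m.re = z.re) (h2 : (Complex.I * m).re = (Complex.I * z).re) :
    m = z := Complex.ext h1 (by simpa using h2)

/-- The radial profile of the mollifier. -/
def bumpProfile (ε r : ℝ) : ℝ := expNegInvGlue (ε ^ 2 - r ^ 2)

lemma bumpProfile_le_one (ε r : ℝ) : bumpProfile ε r ≤ 1 := by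
  rw [bumpProfile, expNegInvGlue]
  split_ifs with h
  · exact zero_le_one
  · exact Real.exp_le_one_iff.2 (neg_nonpos.2 (inv_nonneg.2 (not_le.1 h).le))

/-- The mollifier. -/
def bump (ε : ℝ) (x : ℂ) : ℝ := bumpProfile ε ‖x‖

lemma bump_contDiff (ε : ℝ) : ContDiff ℝ (⊤ : ℕ∞) (bump ε) :=
  expNegInvGlue.contDiff.comp (contDiff_const.sub (contDiff_norm_sq ℂ))

lemma bumpProfile_eq_zero {ε r : ℝ} (hε : 0 ≤ ε) (h : ε ≤ r) : bumpProfile ε r = 0 :=
  expNegInvGlue.zero_of_nonpos (by nlinarith)

lemma bump_eq_zero {ε : ℝ} (hε : 0 ≤ ε) {x : ℂ} (h : ε ≤ ‖x‖) : bump ε x = 0 :=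
  bumpProfile_eq_zero hε h

lemma bump_hasCompactSupport {ε : ℝ} (hε : 0 ≤ ε) : HasCompactSupport (bump ε) :=
  HasCompactSupport.intro (isCompact_closedBall (0 : ℂ) ε) fun x hx =>
    bump_eq_zero hε (by simp only [mem_closedBall, dist_zero_right, not_le] at hx; exact hx.le)

lemma bump_integral_pos {ε : ℝ} (hε : 0 < ε) : 0 < ∫ x, bump ε x := by
  have hc := (bump_contDiff ε).continuous
  refine integral_pos_of_integrable_nonneg_nonzero (x := 0) hc
    (hc.integrable_of_hasCompactSupport (bump_hasCompactSupport hε.le))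
    (fun x => expNegInvGlue.nonneg _) (ne_of_gt (expNegInvGlue.pos_of_pos ?_))
  simpa using pow_pos hε 2

variable {f : ℂ → ℂ} {U : Set ℂ}

lemma circleIntegrable_of_bounded (hm : Measurable f) {z : ℂ} {r C : ℝ} (hr : 0 ≤ r)
    (hb : ∀ w ∈ closedBall z r, ‖f w‖ ≤ C) : CircleIntegrable f z r := by
  rw [circleIntegrable_def, intervalIntegrable_iff]
  have hfin : volume (Ι (0 : ℝ) (2 * π)) ≠ ⊤ := by simp [ENNReal.mul_eq_top]
  refine IntegrableOn.of_bound hfin.lt_top
    (hm.comp (continuous_circleMap z r).measurable).aestronglyMeasurable C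
    (Eventually.of_forall fun θ => hb _ ?_)
  exact circleMap_mem_closedBall z hr θ

/-- Averaging against the mollifier fixes a function with the mean value property. -/
lemma integral_bump_mul_sub (hm : Measurable f) {z : ℂ} {ε C : ℝ} (hε : 0 < ε)
    (hC : ∀ w, ‖f w‖ ≤ C)
    (hmv : ∀ r ∈ Ioc 0 ε, circleAverage f z r = f z) :
    ∫ x, bump ε x • (f (z - x) - f z) = 0 := by
  rw [← Complex.integral_comp_polarCoord_symm, polarCoord_target]
  set F : ℝ × ℝ → ℂ := fun p =>
    p.1 • (bumpProfile ε p.1 • (f (z - p.1 * (Real.cos p.2 + Real.sin p.2 * Complex.I)) - f z))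
    with hF
  have hEq : ∀ p ∈ Ioi (0 : ℝ) ×ˢ Ioo (-π) π,
      p.1 • (bump ε (Complex.polarCoord.symm p) • (f (z - Complex.polarCoord.symm p) - f z))
        = F p := fun p hp => by
    rw [bump, Complex.norm_polarCoord_symm, abs_of_pos hp.1, Complex.polarCoord_symm_apply]
  rw [setIntegral_congr_fun (measurableSet_Ioi.prod measurableSet_Ioo) hEq]
  have hint : IntegrableOn F (Ioi (0 : ℝ) ×ˢ Ioo (-π) π) := by
    have h1 : IntegrableOn F (Ioc (0 : ℝ) ε ×ˢ Ioo (-π) π) := by
      refine IntegrableOn.of_bound ?_ ?_ (ε * (1 * (C + C))) ?_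
      · rw [Measure.volume_eq_prod, Measure.prod_prod]
        exact ENNReal.mul_lt_top (by simp) (by simp)
      · refine Measurable.aestronglyMeasurable ?_
        have hp : Measurable (bumpProfile ε) :=
          (expNegInvGlue.contDiff (n := 0)).continuous.measurable.comp
            (measurable_const.sub (measurable_id.pow_const 2))
        exact measurable_fst.smul ((hp.comp measurable_fst).smul
          ((hm.comp (by fun_prop)).sub measurable_const))
      · refine ae_restrict_of_forall_mem (measurableSet_Ioc.prod measurableSet_Ioo) fun p hp => ?_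
        rw [hF, norm_smul, norm_smul, Real.norm_of_nonneg hp.1.1.le,
          Real.norm_of_nonneg (show 0 ≤ bumpProfile ε p.1 from expNegInvGlue.nonneg _)]
        refine mul_le_mul hp.1.2 (mul_le_mul ?_ ((norm_sub_le _ _).trans
          (add_le_add (hC _) (hC _))) (norm_nonneg _) zero_le_one) (mul_nonneg
            (expNegInvGlue.nonneg _) (norm_nonneg _)) hε.le
        exact bumpProfile_le_one ε p.1
    refine h1.of_forall_sdiff_eq_zero (measurableSet_Ioi.prod measurableSet_Ioo) fun p hp => ?_
    have : ε ≤ p.1 := by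
      by_contra hlt
      exact hp.2 ⟨⟨hp.1.1, (not_le.1 hlt).le⟩, hp.1.2⟩
    simp [hF, bumpProfile_eq_zero hε.le this]
  rw [Measure.volume_eq_prod] at hint ⊢
  rw [setIntegral_prod _ hint]
  refine setIntegral_eq_zero_of_forall_eq_zero fun r hr => ?_
  simp only [hF, integral_smul]
  rcases le_or_gt ε r with hle | hlt
  · rw [bumpProfile_eq_zero hε.le hle, zero_smul, smul_zero]
  have hr' : r ∈ Ioc 0 ε := ⟨hr, hlt.le⟩
  have hci : CircleIntegrable f z r := circleIntegrable_of_bounded hm (le_of_lt hr) fun w _ => hC w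
  have key : ∫ θ in Ioo (-π) π, (f (z - r * (Real.cos θ + Real.sin θ * Complex.I)) - f z) = 0 := by
    rw [← integral_Ioc_eq_integral_Ioo, ← intervalIntegral.integral_of_le (by linarith [pi_pos])]
    have hmap : ∀ θ : ℝ, z - r * (Real.cos θ + Real.sin θ * Complex.I)
        = circleMap z r (θ + π) := fun θ => by
      rw [circleMap, Complex.ofReal_add, add_mul, Complex.exp_add, Complex.exp_pi_mul_I,
        Complex.exp_mul_I, Complex.ofReal_cos, Complex.ofReal_sin]
      ring
    simp_rw [hmap]
    rw [intervalIntegral.integral_comp_add_right (fun θ => f (circleMap z r θ) - f z),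
      show -π + π = 0 by ring, show π + π = 2 * π by ring,
      intervalIntegral.integral_sub hci intervalIntegrable_const, intervalIntegral.integral_const,
      sub_zero]
    have h := hmv r hr'
    rw [circleAverage, inv_smul_eq_iff₀ (by positivity)] at h
    rw [h, sub_self]
  rw [key, smul_zero, smul_zero]

/-- The mean value property on small circles makes a bounded measurable function smooth. -/
lemma contDiffAt_of_circleMean (hm : Measurable f) (hU : IsOpen U)
    (hb : ∀ z r, closedBall z r ⊆ U → ∃ C, ∀ w ∈ closedBall z r, ‖f w‖ ≤ C)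
    (hmv : ∀ z r, 0 < r → closedBall z r ⊆ U → circleAverage f z r = f z)
    {z₀ : ℂ} (hz₀ : z₀ ∈ U) : ContDiffAt ℝ (⊤ : ℕ∞) f z₀ := by
  obtain ⟨R, hR, hRU⟩ := nhds_basis_closedBall.mem_iff.1 (hU.mem_nhds hz₀)
  obtain ⟨C, hC⟩ := hb z₀ R hRU
  set ε := R / 4 with hε_def
  have hε : 0 < ε := by positivity
  set g := indicator (closedBall z₀ R) f with hg
  have hgm : Measurable g := hm.indicator measurableSet_closedBall
  have hC0 : 0 ≤ C := (norm_nonneg _).trans (hC z₀ (mem_closedBall_self hR.le))
  have hgC : ∀ w, ‖g w‖ ≤ C := fun w => by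
    by_cases hw : w ∈ closedBall z₀ R
    · rw [hg, indicator_of_mem hw]; exact hC w hw
    · rw [hg, indicator_of_notMem hw, norm_zero]; exact hC0
  have hgi : Integrable g := by
    rw [hg, integrable_indicator_iff measurableSet_closedBall]
    exact IntegrableOn.of_bound measure_closedBall_lt_top hm.aestronglyMeasurable C
      (ae_restrict_of_forall_mem measurableSet_closedBall hC)
  have hsm := (bump_hasCompactSupport hε.le).contDiff_convolution_left
    (L := ContinuousLinearMap.lsmul ℝ ℝ) (μ := volume) (bump_contDiff ε) hgi.locallyIntegrable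
  set I := ∫ x, bump ε x with hI
  have hI0 : I ≠ 0 := (bump_integral_pos hε).ne'
  refine (hsm.contDiffAt.const_smul I⁻¹).congr_of_eventuallyEq ?_
  filter_upwards [ball_mem_nhds z₀ hε] with z hz
  have hzR : ∀ r, r ≤ 3 * ε → closedBall z r ⊆ closedBall z₀ R := fun r hr =>
    closedBall_subset_closedBall' (by rw [mem_ball] at hz; linarith)
  have hzmem : z ∈ closedBall z₀ R := hzR 0 (by linarith) (mem_closedBall_self le_rfl)
  have hgz : g z = f z := indicator_of_mem hzmem f
  have h0 := integral_bump_mul_sub hgm (z := z) hε hgC fun r hr => by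
    rw [hgz, ← hmv z r hr.1 ((hzR r (by linarith [hr.2])).trans hRU)]
    refine circleAverage_congr_sphere fun w hw => indicator_of_mem ?_ f
    rw [abs_of_pos hr.1] at hw
    exact hzR r (by linarith [hr.2]) (sphere_subset_closedBall hw)
  have hbi : Integrable (bump ε) :=
    (bump_contDiff ε).continuous.integrable_of_hasCompactSupport (bump_hasCompactSupport hε.le)
  have hci : Integrable fun x => bump ε x • g (z - x) :=
    hbi.smul_bdd C (hgm.comp (measurable_const.sub measurable_id)).aestronglyMeasurable
      (Eventually.of_forall fun x => hgC (z - x))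
  simp only [smul_sub] at h0
  rw [integral_sub hci (hbi.smul_const _), integral_smul_const, sub_eq_zero, ← hI, hgz] at h0
  rw [convolution_def]
  simp only [ContinuousLinearMap.lsmul_apply]
  rw [h0, inv_smul_smul₀ hI0]

/-- A bounded measurable function with mean value property and vanishing first moment on all small
circles is holomorphic. -/
theorem differentiableOn_of_circleMeans (hm : Measurable f) (hU : IsOpen U)
    (hb : ∀ z r, closedBall z r ⊆ U → ∃ C, ∀ w ∈ closedBall z r, ‖f w‖ ≤ C)
    (hmv : ∀ z r, 0 < r → closedBall z r ⊆ U → circleAverage f z r = f z)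
    (hmom : ∀ z r, 0 < r → closedBall z r ⊆ U → circleAverage (fun w => (w - z) * f w) z r = 0) :
    DifferentiableOn ℂ f U := by
  intro z hz
  refine DifferentiableAt.differentiableWithinAt ?_
  obtain ⟨D, hD⟩ := (contDiffAt_of_circleMean hm hU hb hmv hz).differentiableAt (by simp)
  set a : ℂ := (D 1 - Complex.I * D Complex.I) / 2 with ha
  set b : ℂ := (D 1 + Complex.I * D Complex.I) / 2 with hb_def
  have hDab : ∀ h : ℂ, D h = a * h + b * conj h := fun h => by
    have e : h = h.re • (1 : ℂ) + h.im • Complex.I := by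
      apply Complex.ext <;> simp
    conv_lhs => rw [e, map_add, map_smul, map_smul]
    rw [ha, hb_def, Complex.real_smul, Complex.real_smul]
    apply Complex.ext <;>
    · simp [Complex.mul_re, Complex.mul_im]
      ring
  have hb0 : b = 0 := by
    rw [← norm_eq_zero]
    refine le_antisymm ?_ (norm_nonneg _)
    refine le_of_forall_pos_le_add fun η hη => ?_
    obtain ⟨R, hR, hRU⟩ := nhds_basis_closedBall.mem_iff.1 (hU.mem_nhds hz)
    obtain ⟨δ, hδ, hδ'⟩ := Metric.eventually_nhds_iff.1 (hD.isLittleO.def hη)
    set r := min R (δ / 2) with hr_def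
    have hr : 0 < r := lt_min hR (by positivity)
    have hrU : closedBall z r ⊆ U := (closedBall_subset_closedBall (min_le_left _ _)).trans hRU
    obtain ⟨C, hC⟩ := hb z r hrU
    set E : ℂ → ℂ := fun w => (w - z) * (f w - f z - D (w - z)) with hE
    have hpoly : ∀ w ∈ sphere z |r|,
        (w - z) * f w - E w = f z * (w - z) + a * (w - z) ^ 2 + b * ((r : ℂ) ^ 2) := fun w hw => by
      rw [mem_sphere, abs_of_pos hr, dist_eq_norm] at hw
      have hn : (w - z) * conj (w - z) = (r : ℂ) ^ 2 := by
        rw [Complex.mul_conj', hw]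
      simp only [hE, hDab]
      linear_combination b * hn
    have hEle : ∀ w ∈ sphere z |r|, ‖E w‖ ≤ η * r ^ 2 := fun w hw => by
      rw [mem_sphere, abs_of_pos hr] at hw
      have h1 := hδ' (y := w) (by rw [hw]; linarith [min_le_right R (δ / 2)])
      rw [dist_eq_norm] at hw
      rw [hE, norm_mul, hw]
      rw [hw] at h1
      calc r * ‖f w - f z - D (w - z)‖ ≤ r * (η * r) := mul_le_mul_of_nonneg_left h1 hr.le
        _ = η * r ^ 2 := by ring
    have hi1 : CircleIntegrable (fun w => (w - z) * f w) z r := by
      refine circleIntegrable_of_bounded (f := fun w => (w - z) * f w)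
        ((measurable_id.sub_const z).mul hm) hr.le (C := r * C) fun w hw => ?_
      rw [norm_mul]
      refine mul_le_mul ?_ (hC w hw) (norm_nonneg _) hr.le
      rwa [← dist_eq_norm]
    have hiE : CircleIntegrable E z r := by
      refine circleIntegrable_of_bounded ?_ hr.le (C := r * (C + ‖f z‖ + ‖D‖ * r)) fun w hw => ?_
      · exact (measurable_id.sub_const z).mul ((hm.sub_const _).sub
          (D.continuous.measurable.comp (measurable_id.sub_const z)))
      · rw [hE, norm_mul]
        rw [mem_closedBall, dist_eq_norm] at hw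
        refine mul_le_mul hw ?_ (norm_nonneg _) hr.le
        refine (norm_sub_le _ _).trans (add_le_add ((norm_sub_le _ _).trans
          (add_le_add (hC w (by rwa [mem_closedBall, dist_eq_norm])) le_rfl)) ?_)
        exact (D.le_opNorm _).trans (mul_le_mul_of_nonneg_left hw (norm_nonneg _))
    have h2 : circleAverage (fun w => (w - z) * f w - E w) z r = b * (r : ℂ) ^ 2 := by
      rw [circleAverage_congr_sphere (f₂ := fun w => f z * (w - z) + a * (w - z) ^ 2
        + b * ((r : ℂ) ^ 2)) hpoly]
      have hd : DiffContOnCl ℂ (fun w => f z * (w - z) + a * (w - z) ^ 2 + b * ((r : ℂ) ^ 2))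
          (ball z |r|) := Differentiable.diffContOnCl (by fun_prop)
      rw [DiffContOnCl.circleAverage hd]
      simp
    rw [Real.circleAverage_fun_sub hi1 hiE, hmom z r hr hrU, zero_sub] at h2
    have h3 : ‖circleAverage E z r‖ ≤ η * r ^ 2 := by
      have hn : ∀ θ ∈ Ι (0 : ℝ) (2 * π), ‖E (circleMap z r θ)‖ ≤ η * r ^ 2 := fun θ _ =>
        hEle _ (circleMap_mem_sphere' z r θ)
      rw [circleAverage, norm_smul, Real.norm_of_nonneg (by positivity)]
      refine (mul_le_mul_of_nonneg_left (intervalIntegral.norm_integral_le_of_norm_le_const hn)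
        (by positivity)).trans_eq ?_
      rw [sub_zero, abs_of_pos (by positivity)]
      field_simp
    have h4 : ‖b‖ * r ^ 2 ≤ η * r ^ 2 := by
      calc ‖b‖ * r ^ 2 = ‖b * (r : ℂ) ^ 2‖ := by
            rw [norm_mul, norm_pow, Complex.norm_real, Real.norm_of_nonneg hr.le]
        _ ≤ η * r ^ 2 := by rw [← h2, norm_neg]; exact h3
    rw [zero_add]
    exact le_of_mul_le_mul_right h4 (by positivity)
  refine (hasFDerivAt_of_restrictScalars ℝ (f' := ContinuousLinearMap.toSpanSingleton ℂ a) hD
    ?_).differentiableAt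
  ext1 h
  show h • a = D h
  rw [hDab, hb0, smul_eq_mul, zero_mul, add_zero, mul_comm]

/-- If the circle means of `conj p * f` are the central values for `p = 1` and `p = · - z`, then
`conj f` is holomorphic. -/
theorem differentiableOn_conj_of_circleMeans (hm : Measurable f) (hU : IsOpen U)
    (hb : ∀ z r, closedBall z r ⊆ U → ∃ C, ∀ w ∈ closedBall z r, ‖f w‖ ≤ C)
    (hmv : ∀ z r, 0 < r → closedBall z r ⊆ U → circleAverage f z r = f z)
    (hmom : ∀ z r, 0 < r → closedBall z r ⊆ U →
      circleAverage (fun w => conj (w - z) * f w) z r = 0) :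
    DifferentiableOn ℂ (fun w => conj (f w)) U := by
  have hconj : ∀ (g : ℂ → ℂ) z r, circleAverage (fun w => conj (g w)) z r
      = conj (circleAverage g z r) := fun g z r => by
    rw [circleAverage, circleAverage, intervalIntegral.intervalIntegral_conj, Complex.real_smul, Complex.real_smul,
      map_mul, Complex.conj_ofReal]
  refine differentiableOn_of_circleMeans (Complex.continuous_conj.measurable.comp hm) hU
    (fun z r h => ?_) (fun z r hr h => ?_) fun z r hr h => ?_
  · obtain ⟨C, hC⟩ := hb z r h
    exact ⟨C, fun w hw => (Complex.norm_conj (f w)).trans_le (hC w hw)⟩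
  · rw [show (fun w => conj (f w)) = fun w => conj (f w) from rfl, hconj, hmv z r hr h]
  · have e : (fun w => (w - z) * conj (f w)) = fun w => conj (conj (w - z) * f w) :=
      funext fun w => by rw [map_mul, Complex.conj_conj]
    rw [e, hconj, hmom z r hr h, map_zero]

end Vale.Agent.P296.Analysis
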