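import Mathlib

/-!
# P296: the Chern form under a change of frame, of coordinates and of weight

`dz` and `dzbar` are the derivatives of type (1,0) and (0,1) in one direction and
`chern H ξ z = -∂̄∂H + ∂̄H H⁻¹ ∂H`. A holomorphic change of frame conjugates the Chern form, a
holomorphic change of coordinates moves the direction by its derivative, and a positive weight adds
a multiple of the Gram matrix.
-/

noncomputable section

namespace Vale.Agent.P296.Cov

open Complex Filter Topology Matrix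
open scoped ContDiff

variable {E F : Type*} [NormedAddCommGroup E] [NormedSpace ℂ E] [NormedAddCommGroup F]
  [NormedSpace ℂ F] {m : Type*} [Fintype m] [DecidableEq m]

/-- Derivative in direction `ξ` of type (1,0). -/
def dz (f : E → ℂ) (ξ z : E) : ℂ :=
  (fderiv ℝ f z ξ - Complex.I * fderiv ℝ f z (Complex.I • ξ)) / 2

/-- Derivative in direction `ξ` of type (0,1). -/
def dzbar (f : E → ℂ) (ξ z : E) : ℂ :=
  (fderiv ℝ f z ξ + Complex.I * fderiv ℝ f z (Complex.I • ξ)) / 2

variable {f f₁ f₂ : E → ℂ} {ξ z : E}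

lemma dz_congr (h : f₁ =ᶠ[𝓝 z] f₂) : dz f₁ ξ z = dz f₂ ξ z := by rw [dz, dz, h.fderiv_eq]

lemma dzbar_congr (h : f₁ =ᶠ[𝓝 z] f₂) : dzbar f₁ ξ z = dzbar f₂ ξ z := by
  rw [dzbar, dzbar, h.fderiv_eq]

lemma dz_add (h₁ : DifferentiableAt ℝ f₁ z) (h₂ : DifferentiableAt ℝ f₂ z) :
    dz (fun w => f₁ w + f₂ w) ξ z = dz f₁ ξ z + dz f₂ ξ z := by
  simp only [dz, fderiv_fun_add h₁ h₂, _root_.add_apply]; ring

lemma dzbar_add (h₁ : DifferentiableAt ℝ f₁ z) (h₂ : DifferentiableAt ℝ f₂ z) :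
    dzbar (fun w => f₁ w + f₂ w) ξ z = dzbar f₁ ξ z + dzbar f₂ ξ z := by
  simp only [dzbar, fderiv_fun_add h₁ h₂, _root_.add_apply]; ring

lemma dz_mul (h₁ : DifferentiableAt ℝ f₁ z) (h₂ : DifferentiableAt ℝ f₂ z) :
    dz (fun w => f₁ w * f₂ w) ξ z = dz f₁ ξ z * f₂ z + f₁ z * dz f₂ ξ z := by
  simp only [dz, fderiv_fun_mul h₁ h₂, _root_.add_apply, _root_.smul_apply, smul_eq_mul]; ring

lemma dzbar_mul (h₁ : DifferentiableAt ℝ f₁ z) (h₂ : DifferentiableAt ℝ f₂ z) :
    dzbar (fun w => f₁ w * f₂ w) ξ z = dzbar f₁ ξ z * f₂ z + f₁ z * dzbar f₂ ξ z := by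
  simp only [dzbar, fderiv_fun_mul h₁ h₂, _root_.add_apply, _root_.smul_apply, smul_eq_mul]; ring

lemma dz_sum {ι : Type*} (s : Finset ι) {g : ι → E → ℂ}
    (h : ∀ i ∈ s, DifferentiableAt ℝ (g i) z) :
    dz (fun w => ∑ i ∈ s, g i w) ξ z = ∑ i ∈ s, dz (g i) ξ z := by
  simp only [dz, fderiv_fun_sum h, FunLike.coe_sum, Finset.sum_apply, Finset.mul_sum,
    ← Finset.sum_sub_distrib, Finset.sum_div]

lemma dzbar_sum {ι : Type*} (s : Finset ι) {g : ι → E → ℂ}
    (h : ∀ i ∈ s, DifferentiableAt ℝ (g i) z) :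
    dzbar (fun w => ∑ i ∈ s, g i w) ξ z = ∑ i ∈ s, dzbar (g i) ξ z := by
  simp only [dzbar, fderiv_fun_sum h, FunLike.coe_sum, Finset.sum_apply, Finset.mul_sum,
    ← Finset.sum_add_distrib, Finset.sum_div]

lemma fderiv_real_of_complex {g : E → F} (h : DifferentiableAt ℂ g z) (a : E) :
    fderiv ℝ g z a = fderiv ℂ g z a := by
  rw [h.fderiv_restrictScalars ℝ]; rfl

lemma dz_hol (h : DifferentiableAt ℂ f z) : dz f ξ z = fderiv ℂ f z ξ := by
  rw [dz, fderiv_real_of_complex h, fderiv_real_of_complex h, map_smul, smul_eq_mul, ← mul_assoc,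
    I_mul_I]
  ring

lemma dzbar_hol (h : DifferentiableAt ℂ f z) : dzbar f ξ z = 0 := by
  rw [dzbar, fderiv_real_of_complex h, fderiv_real_of_complex h, map_smul, smul_eq_mul, ← mul_assoc,
    I_mul_I]
  ring

lemma fderiv_star_apply (h : DifferentiableAt ℝ f z) (a : E) :
    fderiv ℝ (fun w => star (f w)) z a = star (fderiv ℝ f z a) := by
  exact congrArg (fun L : E →L[ℝ] ℂ => L a)
    ((Complex.conjCLE.toContinuousLinearMap.hasFDerivAt.comp z h.hasFDerivAt).fderiv)

lemma dz_star_hol (h : DifferentiableAt ℂ f z) : dz (fun w => star (f w)) ξ z = 0 := by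
  have hr := h.restrictScalars ℝ
  rw [dz, fderiv_star_apply hr, fderiv_star_apply hr, fderiv_real_of_complex h,
    fderiv_real_of_complex h, map_smul, smul_eq_mul, star_mul', Complex.star_def, conj_I,
    ← mul_assoc, mul_neg, I_mul_I]
  ring

lemma dzbar_star_hol (h : DifferentiableAt ℂ f z) :
    dzbar (fun w => star (f w)) ξ z = star (fderiv ℂ f z ξ) := by
  have hr := h.restrictScalars ℝ
  rw [dzbar, fderiv_star_apply hr, fderiv_star_apply hr, fderiv_real_of_complex h,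
    fderiv_real_of_complex h, map_smul, smul_eq_mul, star_mul', Complex.star_def, conj_I,
    ← mul_assoc, mul_neg, I_mul_I]
  ring

/-! ## Matrices -/

/-- Entrywise derivative of type (1,0). -/
def dzM (A : E → Matrix m m ℂ) (ξ z : E) : Matrix m m ℂ :=
  Matrix.of fun i j => dz (fun w => A w i j) ξ z

/-- Entrywise derivative of type (0,1). -/
def dzbarM (A : E → Matrix m m ℂ) (ξ z : E) : Matrix m m ℂ :=
  Matrix.of fun i j => dzbar (fun w => A w i j) ξ z

/-- The Chern form `-∂̄∂H + ∂̄H H⁻¹ ∂H`. -/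
def chern (H : E → Matrix m m ℂ) (ξ z : E) : Matrix m m ℂ :=
  -dzbarM (fun w => dzM H ξ w) ξ z + dzbarM H ξ z * (H z)⁻¹ * dzM H ξ z

/-- Real differentiability of all entries. -/
def DiffM (A : E → Matrix m m ℂ) (z : E) : Prop :=
  ∀ i j, DifferentiableAt ℝ (fun w => A w i j) z

variable {A B : E → Matrix m m ℂ}

omit [DecidableEq m] in
lemma DiffM.mul (hA : DiffM A z) (hB : DiffM B z) : DiffM (fun w => A w * B w) z := fun i j => by
  simp only [Matrix.mul_apply]
  exact DifferentiableAt.fun_sum fun k _ => (hA i k).fun_mul (hB k j)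

omit [Fintype m] [DecidableEq m] in
lemma DiffM.add (hA : DiffM A z) (hB : DiffM B z) : DiffM (fun w => A w + B w) z :=
  fun i j => (hA i j).add (hB i j)

omit [DecidableEq m] in
lemma dzM_mul (hA : DiffM A z) (hB : DiffM B z) :
    dzM (fun w => A w * B w) ξ z = dzM A ξ z * B z + A z * dzM B ξ z := by
  ext i j
  simp only [dzM, Matrix.of_apply, Matrix.add_apply, Matrix.mul_apply]
  rw [dz_sum _ fun k _ => (hA i k).fun_mul (hB k j), ← Finset.sum_add_distrib]
  exact Finset.sum_congr rfl fun k _ => dz_mul (hA i k) (hB k j)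

omit [DecidableEq m] in
lemma dzbarM_mul (hA : DiffM A z) (hB : DiffM B z) :
    dzbarM (fun w => A w * B w) ξ z = dzbarM A ξ z * B z + A z * dzbarM B ξ z := by
  ext i j
  simp only [dzbarM, Matrix.of_apply, Matrix.add_apply, Matrix.mul_apply]
  rw [dzbar_sum _ fun k _ => (hA i k).fun_mul (hB k j), ← Finset.sum_add_distrib]
  exact Finset.sum_congr rfl fun k _ => dzbar_mul (hA i k) (hB k j)

omit [Fintype m] [DecidableEq m] in
lemma dzbarM_add (hA : DiffM A z) (hB : DiffM B z) :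
    dzbarM (fun w => A w + B w) ξ z = dzbarM A ξ z + dzbarM B ξ z := by
  ext i j
  simp only [dzbarM, Matrix.of_apply, Matrix.add_apply]
  exact dzbar_add (hA i j) (hB i j)

omit [Fintype m] [DecidableEq m] in
lemma dzM_congr (h : A =ᶠ[𝓝 z] B) : dzM A ξ z = dzM B ξ z := by
  ext i j
  exact dz_congr (h.mono fun w hw => show A w i j = B w i j by rw [hw])

omit [Fintype m] [DecidableEq m] in
lemma dzbarM_congr (h : A =ᶠ[𝓝 z] B) : dzbarM A ξ z = dzbarM B ξ z := by
  ext i j
  exact dzbar_congr (h.mono fun w hw => show A w i j = B w i j by rw [hw])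

lemma chern_congr (h : A =ᶠ[𝓝 z] B) : chern A ξ z = chern B ξ z := by
  rw [chern, chern, dzM_congr h, dzbarM_congr h, h.eq_of_nhds,
    dzbarM_congr (h.eventuallyEq_nhds.mono fun w hw => dzM_congr hw)]

lemma differentiableAt_fderiv_apply (hf : ContDiffAt ℝ 2 f z) (a : E) :
    DifferentiableAt ℝ (fun w => fderiv ℝ f w a) z :=
  ((hf.fderiv_right (m := 1) (by norm_num)).differentiableAt one_ne_zero).clm_apply
    (differentiableAt_const a)

lemma differentiableAt_dz (hf : ContDiffAt ℝ 2 f z) : DifferentiableAt ℝ (fun w => dz f ξ w) z := by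
  simp only [dz, div_eq_mul_inv]
  exact ((differentiableAt_fderiv_apply hf ξ).fun_sub
    ((differentiableAt_fderiv_apply hf (I • ξ)).const_mul I)).mul_const _

omit [Fintype m] [DecidableEq m] in
lemma diffM_dzM (hA : ∀ i j, ContDiffAt ℝ 2 (fun w => A w i j) z) :
    DiffM (fun w => dzM A ξ w) z := fun i j => differentiableAt_dz (hA i j)

omit [Fintype m] [DecidableEq m] in
lemma diffM_of_contDiffAt (hA : ∀ i j, ContDiffAt ℝ 2 (fun w => A w i j) z) : DiffM A z :=
  fun i j => (hA i j).differentiableAt two_ne_zero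

/-! ## Change of frame -/

variable {G : E → Matrix m m ℂ} {H H' : E → Matrix m m ℂ}

/-- A holomorphic change of frame conjugates the Chern form. -/
theorem chern_frame (hG : ∀ i j, ∀ᶠ w in 𝓝 z, DifferentiableAt ℂ (fun x => G x i j) w)
    (hG' : ∀ i j, DifferentiableAt ℂ (fun w => fderiv ℂ (fun x => G x i j) w ξ) z)
    (hH' : ∀ i j, ContDiffAt ℝ 2 (fun w => H' w i j) z)
    (hunit : IsUnit (G z).det) (hHunit : IsUnit (H' z).det)
    (heq : H =ᶠ[𝓝 z] fun w => (G w)ᴴ * H' w * G w) :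
    chern H ξ z = (G z)ᴴ * chern H' ξ z * G z := by
  rw [chern_congr heq]
  set dG : E → Matrix m m ℂ := fun w => Matrix.of fun i j => fderiv ℂ (fun x => G x i j) w ξ
    with hdG
  have hd' : ∀ᶠ w in 𝓝 z, ∀ i j, DifferentiableAt ℂ (fun x => G x i j) w :=
    eventually_all.2 fun i => eventually_all.2 fun j => hG i j
  have hH'd : ∀ᶠ w in 𝓝 z, DiffM H' w := by
    refine eventually_all.2 fun i => eventually_all.2 fun j => ?_
    exact ((hH' i j).eventually (by simp)).mono fun w hw => hw.differentiableAt two_ne_zero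
  have hdz : ∀ᶠ w in 𝓝 z, dzM (fun w => (G w)ᴴ * H' w * G w) ξ w =
      (G w)ᴴ * (dzM H' ξ w * G w + H' w * dG w) := by
    filter_upwards [hd', hH'd] with w hw hHw
    have hGd : DiffM G w := fun i j => (hw i j).restrictScalars ℝ
    have hGc : DiffM (fun w => (G w)ᴴ) w := fun i j => ((hw j i).restrictScalars ℝ).star
    rw [dzM_mul (hGc.mul hHw) hGd, dzM_mul hGc hHw]
    have e1 : dzM (fun w => (G w)ᴴ) ξ w = 0 := by
      ext i j; exact dz_star_hol (hw j i)
    have e2 : dzM G ξ w = dG w := by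
      ext i j; exact dz_hol (hw i j)
    rw [e1, e2]
    simp [Matrix.mul_add, Matrix.mul_assoc]
  have hd := hd'.self_of_nhds
  have hHd := diffM_of_contDiffAt hH'
  have hGd : DiffM G z := fun i j => (hd i j).restrictScalars ℝ
  have hGc : DiffM (fun w => (G w)ᴴ) z := fun i j => ((hd j i).restrictScalars ℝ).star
  have hdGd : DiffM dG z := fun i j => (hG' i j).restrictScalars ℝ
  have hdH := diffM_dzM (ξ := ξ) hH'
  have b1 : dzbarM (fun w => (G w)ᴴ) ξ z = (dG z)ᴴ := by
    ext i j; exact dzbar_star_hol (hd j i)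
  have b2 : dzbarM G ξ z = 0 := by ext i j; exact dzbar_hol (hd i j)
  have b3 : dzbarM dG ξ z = 0 := by ext i j; exact dzbar_hol (hG' i j)
  rw [chern, dzbarM_congr hdz, hdz.self_of_nhds,
    dzbarM_mul hGc ((hdH.mul hGd).add (hHd.mul hdGd)), dzbarM_add (hdH.mul hGd) (hHd.mul hdGd),
    dzbarM_mul hdH hGd, dzbarM_mul hHd hdGd, dzbarM_mul (hGc.mul hHd) hGd, dzbarM_mul hGc hHd,
    b1, b2, b3]
  have hc : IsUnit ((G z)ᴴ).det := by rw [Matrix.det_conjTranspose]; exact hunit.star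
  have hmid : ∀ P Q : Matrix m m ℂ,
      P * G z * ((G z)ᴴ * H' z * G z)⁻¹ * ((G z)ᴴ * Q) = P * (H' z)⁻¹ * Q := fun P Q => by
    rw [Matrix.mul_inv_rev, Matrix.mul_inv_rev]
    calc P * G z * ((G z)⁻¹ * ((H' z)⁻¹ * ((G z)ᴴ)⁻¹)) * ((G z)ᴴ * Q)
        = P * (G z * (G z)⁻¹) * (H' z)⁻¹ * (((G z)ᴴ)⁻¹ * (G z)ᴴ) * Q := by
          simp only [Matrix.mul_assoc]
      _ = P * (H' z)⁻¹ * Q := by
          rw [Matrix.mul_nonsing_inv _ hunit, Matrix.nonsing_inv_mul _ hc, Matrix.mul_one,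
            Matrix.mul_one]
  simp only [Matrix.mul_zero, add_zero, chern]
  rw [hmid]
  set Dc := (dG z)ᴴ
  set Gc := (G z)ᴴ
  have hi1 : ∀ Q : Matrix m m ℂ, H' z * ((H' z)⁻¹ * Q) = Q := fun Q => by
    rw [← Matrix.mul_assoc, Matrix.mul_nonsing_inv _ hHunit, Matrix.one_mul]
  have hi2 : ∀ Q : Matrix m m ℂ, (H' z)⁻¹ * (H' z * Q) = Q := fun Q => by
    rw [← Matrix.mul_assoc, Matrix.nonsing_inv_mul _ hHunit, Matrix.one_mul]
  simp only [Matrix.mul_add, Matrix.add_mul, Matrix.mul_assoc, Matrix.neg_mul, Matrix.mul_neg,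
    hi1, hi2]
  abel

/-! ## Weights -/

omit [Fintype m] [DecidableEq m] in
lemma dzM_smul {p : E → ℂ} (hp : DifferentiableAt ℝ p z) (hA : DiffM A z) :
    dzM (fun w => p w • A w) ξ z = dz p ξ z • A z + p z • dzM A ξ z := by
  ext i j
  simp only [dzM, Matrix.of_apply, Matrix.add_apply, Matrix.smul_apply, smul_eq_mul]
  exact dz_mul hp (hA i j)

omit [Fintype m] [DecidableEq m] in
lemma dzbarM_smul {p : E → ℂ} (hp : DifferentiableAt ℝ p z) (hA : DiffM A z) :
    dzbarM (fun w => p w • A w) ξ z = dzbar p ξ z • A z + p z • dzbarM A ξ z := by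
  ext i j
  simp only [dzbarM, Matrix.of_apply, Matrix.add_apply, Matrix.smul_apply, smul_eq_mul]
  exact dzbar_mul hp (hA i j)

/-- A weight adds a multiple of the Gram matrix. -/
theorem chern_smul {p : E → ℂ} (hp : ContDiffAt ℝ 2 p z) (hp0 : p z ≠ 0)
    (hH : ∀ i j, ContDiffAt ℝ 2 (fun w => H w i j) z) (hHunit : IsUnit (H z).det) :
    chern (fun w => p w • H w) ξ z = p z • chern H ξ z +
      (dzbar p ξ z * dz p ξ z / p z - dzbar (fun w => dz p ξ w) ξ z) • H z := by
  have hdz : ∀ᶠ w in 𝓝 z, dzM (fun w => p w • H w) ξ w =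
      dz p ξ w • H w + p w • dzM H ξ w := by
    have hHd : ∀ᶠ w in 𝓝 z, DiffM H w := by
      refine eventually_all.2 fun i => eventually_all.2 fun j => ?_
      exact ((hH i j).eventually (by simp)).mono fun w hw => hw.differentiableAt two_ne_zero
    filter_upwards [hHd, hp.eventually (by simp)] with w hw hpw
    exact dzM_smul (hpw.differentiableAt two_ne_zero) hw
  have hpd := hp.differentiableAt two_ne_zero
  have hHd := diffM_of_contDiffAt hH
  have hdH := diffM_dzM (ξ := ξ) hH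
  have hdp : DifferentiableAt ℝ (fun w => dz p ξ w) z := differentiableAt_dz hp
  have s1 : DiffM (fun w => dz p ξ w • H w) z := fun i j => hdp.mul (hHd i j)
  have s2 : DiffM (fun w => p w • dzM H ξ w) z := fun i j => hpd.mul (hdH i j)
  have hinv : (p z • H z)⁻¹ = (p z)⁻¹ • (H z)⁻¹ := by
    refine Matrix.inv_eq_right_inv ?_
    rw [smul_mul_smul_comm, mul_inv_cancel₀ hp0, Matrix.mul_nonsing_inv _ hHunit, one_smul]
  rw [chern, dzbarM_congr hdz, hdz.self_of_nhds, dzbarM_add s1 s2, dzbarM_smul hdp hHd,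
    dzbarM_smul hpd hdH, dzbarM_smul hpd hHd, hinv, chern]
  simp only [Matrix.smul_mul, Matrix.mul_smul, Matrix.mul_add, Matrix.add_mul, smul_add, smul_smul,
    Matrix.mul_assoc, Matrix.nonsing_inv_mul _ hHunit, Matrix.mul_nonsing_inv _ hHunit,
    Matrix.mul_one, sub_smul, smul_neg]
  simp only [Matrix.one_mul]
  match_scalars <;> field_simp <;> ring

/-! ## Change of coordinates -/

lemma dz_comp {φ : F → E} {y η : F} (hφ : DifferentiableAt ℂ φ y)
    (hf : DifferentiableAt ℝ f (φ y)) :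
    dz (fun x => f (φ x)) η y = dz f (fderiv ℂ φ y η) (φ y) := by
  have e : ∀ a, fderiv ℝ (fun x => f (φ x)) y a = fderiv ℝ f (φ y) (fderiv ℂ φ y a) := fun a => by
    rw [← fderiv_real_of_complex hφ]
    rw [show (fun x => f (φ x)) = f ∘ φ from rfl, fderiv_comp y hf (hφ.restrictScalars ℝ)]
    rfl
  rw [dz, dz, e, e, map_smul]

lemma dzbar_comp {φ : F → E} {y η : F} (hφ : DifferentiableAt ℂ φ y)
    (hf : DifferentiableAt ℝ f (φ y)) :
    dzbar (fun x => f (φ x)) η y = dzbar f (fderiv ℂ φ y η) (φ y) := by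
  have e : ∀ a, fderiv ℝ (fun x => f (φ x)) y a = fderiv ℝ f (φ y) (fderiv ℂ φ y a) := fun a => by
    rw [← fderiv_real_of_complex hφ]
    rw [show (fun x => f (φ x)) = f ∘ φ from rfl, fderiv_comp y hf (hφ.restrictScalars ℝ)]
    rfl
  rw [dzbar, dzbar, e, e, map_smul]

lemma dzbar_dz_comp {φ : F → E} {y η : F} (hφ : ∀ᶠ x in 𝓝 y, DifferentiableAt ℂ φ x)
    (hφ' : DifferentiableAt ℂ (fun x => fderiv ℂ φ x η) y) (hf : ContDiffAt ℝ 2 f (φ y)) :
    dzbar (fun x => dz (fun u => f (φ u)) η x) η y =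
      dzbar (fun w => dz f (fderiv ℂ φ y η) w) (fderiv ℂ φ y η) (φ y) := by
  have hφy := hφ.self_of_nhds
  set v : F → E := fun x => fderiv ℂ φ x η
  have hev : (fun x => dz (fun u => f (φ u)) η x) =ᶠ[𝓝 y]
      fun x => (fderiv ℝ f (φ x) (v x) - I * fderiv ℝ f (φ x) (I • v x)) / 2 := by
    filter_upwards [hφ, hφy.continuousAt.eventually (hf.eventually (by simp))] with x hx hfx
    exact dz_comp hx (hfx.differentiableAt two_ne_zero)
  rw [dzbar_congr hev]
  have hT : DifferentiableAt ℝ (fderiv ℝ f) (φ y) :=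
    (hf.fderiv_right (m := 1) (by norm_num)).differentiableAt one_ne_zero
  have hφr := hφy.restrictScalars ℝ
  have hTφ : DifferentiableAt ℝ (fun x => fderiv ℝ f (φ x)) y := hT.comp y hφr
  have hv : DifferentiableAt ℝ v y := hφ'.restrictScalars ℝ
  have hIv : DifferentiableAt ℝ (fun x => I • v x) y := hv.const_smul I
  have e : ∀ a, fderiv ℝ
      (fun x => (fderiv ℝ f (φ x) (v x) - I * fderiv ℝ f (φ x) (I • v x)) / 2) y a =
      (fderiv ℝ (fderiv ℝ f) (φ y) (fderiv ℂ φ y a) (v y) + fderiv ℝ f (φ y) (fderiv ℂ v y a) -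
        I * (fderiv ℝ (fderiv ℝ f) (φ y) (fderiv ℂ φ y a) (I • v y) +
          fderiv ℝ f (φ y) (I • fderiv ℂ v y a))) / 2 := fun a => by
    have h1 := ((((hTφ.hasFDerivAt).clm_apply hv.hasFDerivAt).fun_sub
      (((hTφ.hasFDerivAt).clm_apply hIv.hasFDerivAt).const_mul I)).mul_const' ((2 : ℂ)⁻¹))
    have h2 : fderiv ℝ (fun x => fderiv ℝ f (φ x)) y a =
        fderiv ℝ (fderiv ℝ f) (φ y) (fderiv ℂ φ y a) := by
      rw [show (fun x => fderiv ℝ f (φ x)) = fderiv ℝ f ∘ φ from rfl, fderiv_comp y hT hφr,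
        ← fderiv_real_of_complex hφy]
      rfl
    have h3 : fderiv ℝ (fun x => I • v x) y a = I • fderiv ℂ v y a := by
      rw [fderiv_fun_const_smul hv, _root_.smul_apply, fderiv_real_of_complex hφ']
    simp only [div_eq_mul_inv]
    rw [h1.fderiv]
    simp only [_root_.smul_apply, _root_.add_apply, _root_.sub_apply,
      ContinuousLinearMap.comp_apply, ContinuousLinearMap.flip_apply, smul_eq_mul,
      h2, h3, fderiv_real_of_complex hφ']
    simp only [MulOpposite.smul_eq_mul_unop, MulOpposite.unop_op]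
    ring
  have e2 : ∀ a, fderiv ℝ (fun w => dz f (v y) w) (φ y) a =
      (fderiv ℝ (fderiv ℝ f) (φ y) a (v y) -
        I * fderiv ℝ (fderiv ℝ f) (φ y) a (I • v y)) / 2 := fun a => by
    have h1 := (((hT.hasFDerivAt).clm_apply (hasFDerivAt_const (v y) (φ y))).fun_sub
      (((hT.hasFDerivAt).clm_apply (hasFDerivAt_const (I • v y) (φ y))).const_mul I)).mul_const'
        ((2 : ℂ)⁻¹)
    simp only [dz, div_eq_mul_inv]
    rw [h1.fderiv]
    simp only [_root_.smul_apply, _root_.add_apply, _root_.sub_apply,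
      ContinuousLinearMap.comp_apply, ContinuousLinearMap.flip_apply, _root_.zero_apply,
      map_zero, smul_eq_mul]
    simp only [MulOpposite.smul_eq_mul_unop, MulOpposite.unop_op]
    ring
  rw [dzbar, dzbar, e, e, e2, e2, (fderiv ℂ φ y).map_smul, (fderiv ℂ v y).map_smul, smul_smul,
    I_mul_I, neg_one_smul, map_neg]
  simp only [v]
  linear_combination
    (1 / 4 : ℂ) * fderiv ℝ f (φ y) (fderiv ℂ (fun x => fderiv ℂ φ x η) y η) * I_mul_I

/-- A holomorphic change of coordinates moves the direction by its derivative. -/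
theorem chern_comp {φ : F → E} {y η : F} (hφ : ∀ᶠ x in 𝓝 y, DifferentiableAt ℂ φ x)
    (hφ' : DifferentiableAt ℂ (fun x => fderiv ℂ φ x η) y)
    (hH : ∀ i j, ContDiffAt ℝ 2 (fun w => H w i j) (φ y)) :
    chern (fun x => H (φ x)) η y = chern H (fderiv ℂ φ y η) (φ y) := by
  have e1 : dzM (fun x => H (φ x)) η y = dzM H (fderiv ℂ φ y η) (φ y) := by
    ext i j; exact dz_comp hφ.self_of_nhds ((hH i j).differentiableAt two_ne_zero)
  have e2 : dzbarM (fun x => H (φ x)) η y = dzbarM H (fderiv ℂ φ y η) (φ y) := by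
    ext i j; exact dzbar_comp hφ.self_of_nhds ((hH i j).differentiableAt two_ne_zero)
  have e3 : dzbarM (fun x => dzM (fun x => H (φ x)) η x) η y =
      dzbarM (fun w => dzM H (fderiv ℂ φ y η) w) (fderiv ℂ φ y η) (φ y) := by
    ext i j
    simp only [dzbarM, dzM, Matrix.of_apply]
    exact dzbar_dz_comp (f := fun u => H u i j) hφ hφ' (hH i j)
  unfold chern
  rw [e3, e1, e2]

end Vale.Agent.P296.Cov
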