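import Vale.Agent.P296.Analysis.CircleMean
import Vale.Agent.P296.Analysis.HermitianForm

/-!
# P296: the cross term of a plurisubharmonic Hermitian quadratic function is holomorphic

If `q z (w z)` is constant and `z ↦ q z (w z + p z • σ z)` has the sub mean value property for all
affine `p`, then `z ↦ pol (q z) (w z) (σ z)` is holomorphic: put a small real factor on `p` and use
both signs.
-/

noncomputable section

namespace Vale.Agent.P296.Analysis

open MeasureTheory Metric Real Set
open scoped ComplexConjugate

universe u

variable {V : Type u} [AddCommGroup V] [Module ℂ V]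

/-- The cross term is holomorphic. -/
theorem crossTerm_holomorphic {q : ℂ → V → ℝ} (h : ∀ z, IsHermSq (q z)) {U : Set ℂ}
    (hU : IsOpen U) {w σ : ℂ → V} {c : ℝ} (hc : ∀ z ∈ U, q z (w z) = c)
    (hm : Measurable fun z => pol (q z) (w z) (σ z))
    (hb : ∀ z r, closedBall z r ⊆ U →
      ∃ C, ∀ y ∈ closedBall z r, ‖pol (q y) (w y) (σ y)‖ ≤ C ∧ |q y (σ y)| ≤ C)
    (hsm : Measurable fun z => q z (σ z))
    (hsub : ∀ z r, 0 < r → closedBall z r ⊆ U → ∀ a b : ℂ,
      q z (w z + a • σ z) ≤ circleAverage (fun y => q y (w y + (a + b * (y - z)) • σ y)) z r) :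
    DifferentiableOn ℂ (fun z => pol (q z) (w z) (σ z)) U := by
  set f := fun z => pol (q z) (w z) (σ z) with hf
  have key : ∀ z r, 0 < r → closedBall z r ⊆ U → ∀ a b : ℂ,
      circleAverage (fun y => (a + b * (y - z)) * f y) z r = a * f z := by
    intro z r hr hUz a b
    obtain ⟨C, hC⟩ := hb z r hUz
    set ρ := ‖a‖ + ‖b‖ * r with hρ
    have hp : ∀ y ∈ closedBall z r, ‖a + b * (y - z)‖ ≤ ρ := fun y hy => by
      refine (norm_add_le _ _).trans (add_le_add le_rfl ?_)
      rw [norm_mul, ← dist_eq_norm]
      exact mul_le_mul_of_nonneg_left hy (norm_nonneg _)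
    have hzU : ∀ y ∈ sphere z |r|, y ∈ U := fun y hy => by
      rw [abs_of_pos hr] at hy
      exact hUz (sphere_subset_closedBall hy)
    have hρ0 : 0 ≤ ρ := by positivity
    have hC0 : 0 ≤ C := (norm_nonneg _).trans (hC z (mem_closedBall_self hr.le)).1
    -- the linear identity for every rotation `κ` of the coefficients
    have hre : ∀ κ : ℂ, (κ * circleAverage (fun y => (a + b * (y - z)) * f y) z r).re
        = (κ * (a * f z)).re := by
      intro κ
      set p := fun y => κ * (a + b * (y - z)) with hp_def
      have hpm : Measurable p := by fun_prop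
      have hi0 : CircleIntegrable (fun y => (a + b * (y - z)) * f y) z r :=
        circleIntegrable_of_bounded (f := fun y => (a + b * (y - z)) * f y)
          ((by fun_prop : Measurable fun y => a + b * (y - z)).mul hm) hr.le (C := ρ * C)
          fun y hy => by
            rw [norm_mul]
            exact mul_le_mul (hp y hy) (hC y hy).1 (norm_nonneg _) hρ0
      set L := fun y => (p y * f y).re with hL
      set Qd := fun y => ‖p y‖ ^ 2 * q y (σ y) with hQd
      have hiL : CircleIntegrable L z r := by
        have hi1 : CircleIntegrable (fun y => ((p y * f y).re : ℂ)) z r := by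
          refine circleIntegrable_of_bounded (f := fun y => ((p y * f y).re : ℂ))
            (Complex.measurable_ofReal.comp (Complex.measurable_re.comp (hpm.mul hm))) hr.le
            (C := ‖κ‖ * ρ * C) fun y hy => ?_
          rw [Complex.norm_real, Real.norm_eq_abs]
          refine (Complex.abs_re_le_norm _).trans ?_
          rw [norm_mul, hp_def, norm_mul]
          exact mul_le_mul (mul_le_mul_of_nonneg_left (hp y hy) (norm_nonneg _)) (hC y hy).1
            (norm_nonneg _) (by positivity)
        exact ⟨hi1.1.re, hi1.2.re⟩
      have hiQ : CircleIntegrable Qd z r := by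
        have hi1 : CircleIntegrable (fun y => ((‖p y‖ ^ 2 * q y (σ y) : ℝ) : ℂ)) z r := by
          refine circleIntegrable_of_bounded (f := fun y => ((‖p y‖ ^ 2 * q y (σ y) : ℝ) : ℂ))
            (Complex.measurable_ofReal.comp ((hpm.norm.pow_const 2).mul hsm)) hr.le
            (C := (‖κ‖ * ρ) ^ 2 * C) fun y hy => ?_
          rw [Complex.norm_real, norm_mul, norm_pow, norm_norm, Real.norm_eq_abs, hp_def, norm_mul]
          exact mul_le_mul (pow_le_pow_left₀ (by positivity)
            (mul_le_mul_of_nonneg_left (hp y hy) (norm_nonneg _)) 2) (hC y hy).2 (abs_nonneg _)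
            (by positivity)
        exact ⟨hi1.1.re, hi1.2.re⟩
      have hq := eq_of_quadratic_le (a := c) (x := (κ * (a * f z)).re)
        (y := ‖κ * a‖ ^ 2 * q z (σ z)) (X := circleAverage L z r) (Y := circleAverage Qd z r)
        fun t => by
        have h1 := hsub z r hr hUz (t * (κ * a)) (t * (κ * b))
        rw [(h z).expand_smul, hc z (hUz (mem_closedBall_self hr.le))] at h1
        have h2 : circleAverage
            (fun y => q y (w y + (t * (κ * a) + t * (κ * b) * (y - z)) • σ y)) z r
            = c + 2 * t * circleAverage L z r + t ^ 2 * circleAverage Qd z r := by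
          have hi2 : CircleIntegrable (fun y => 2 * t * L y) z r :=
            ⟨hiL.1.const_mul _, hiL.2.const_mul _⟩
          have hi3 : CircleIntegrable (fun y => t ^ 2 * Qd y) z r :=
            ⟨hiQ.1.const_mul _, hiQ.2.const_mul _⟩
          have hi4 : CircleIntegrable (fun y => c + 2 * t * L y) z r :=
            (circleIntegrable_const c z r).add hi2
          rw [circleAverage_congr_sphere (f₂ := fun y => c + 2 * t * L y + t ^ 2 * Qd y)
            fun y hy => ?_]
          · rw [circleAverage_fun_add hi4 hi3,
              circleAverage_fun_add (circleIntegrable_const c z r) hi2, circleAverage_const]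
            simp only [← smul_eq_mul, circleAverage_fun_smul]
          · simp only [(h y).expand_smul, hc y (hzU y hy)]
            have e : (t : ℂ) * (κ * a) + t * (κ * b) * (y - z) = (t : ℂ) * p y := by
              rw [hp_def]; ring
            rw [e, norm_mul, Complex.norm_real, Real.norm_eq_abs, mul_pow, sq_abs, mul_assoc,
              Complex.re_ofReal_mul]
            simp only [hL, hQd, hf]
            ring
        rw [h2, norm_mul, Complex.norm_real, Real.norm_eq_abs, mul_pow, sq_abs, mul_assoc,
          Complex.re_ofReal_mul, mul_assoc κ a] at h1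
        simp only [hf]
        linarith
      rw [hq, hL, hp_def]
      simp only [mul_assoc κ]
      rw [show (fun y => (κ * ((a + b * (y - z)) * f y)).re)
        = ⇑Complex.reCLM ∘ fun y => κ • ((a + b * (y - z)) * f y) from rfl]
      rw [ContinuousLinearMap.circleAverage_comp_comm _ ?_, circleAverage_fun_smul]
      · rfl
      · exact hi0.const_fun_smul
    refine eq_of_re_eq ?_ (hre Complex.I)
    simpa using hre 1
  refine differentiableOn_of_circleMeans hm hU (fun z r hz => ?_) (fun z r hr hz => ?_)
    fun z r hr hz => ?_
  · obtain ⟨C, hC⟩ := hb z r hz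
    exact ⟨C, fun y hy => (hC y hy).1⟩
  · simpa using key z r hr hz 1 0
  · simpa using key z r hr hz 0 1

end Vale.Agent.P296.Analysis
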