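import Vale.Agent.P296.Statement
import Vale.Agent.P296.Analysis.Covariance

/-!
# P296: a Griffiths positive metric pulls back to nonnegative Chern forms

Along any holomorphic map to `X`, in any holomorphic frame, the Chern form of a Griffiths positive
metric is nonnegative, and positive in the directions not killed by the map.
-/

noncomputable section

namespace Vale.Agent.P296

open scoped Manifold ContDiff Topology
open Matrix Filter
open scoped ComplexOrder

variable {n r : ℕ} {X : Type} [TopologicalSpace X] [ChartedSpace (Cn n) X]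
  {E : HolBundle n r X} {F : Type*} [NormedAddCommGroup F] [NormedSpace ℂ F]

lemma chernForm_eq_chern (H : Cn n → Matrix (Fin r) (Fin r) ℂ) (ξ z : Cn n) :
    chernForm H ξ z = Cov.chern H ξ z := rfl

/-- The Gram matrix in the chart at a point is smooth there. -/
lemma HermMetric.contDiffAt_chart (h : HermMetric E) (a : E.ι) {x : X}
    (hx : x ∈ E.core.baseSet a) (i j : Fin r) :
    ContDiffAt ℝ 2 (fun z => h.h a ((chartAt (Cn n) x).symm z) i j) (chartAt (Cn n) x x) := by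
  set c := chartAt (Cn n) x
  have ho : IsOpen (c.target ∩ c.symm ⁻¹' E.core.baseSet a) :=
    c.continuousOn_symm.isOpen_inter_preimage c.open_target (E.core.isOpen_baseSet a)
  have hm : c x ∈ c.target ∩ c.symm ⁻¹' E.core.baseSet a :=
    ⟨c.map_source (mem_chart_source _ x), by
      show c.symm (c x) ∈ E.core.baseSet a
      rwa [c.left_inv (mem_chart_source _ x)]⟩
  exact ((h.smooth a i j x).contDiffAt (ho.mem_nhds hm)).of_le (WithTop.coe_le_coe.2 le_top)

lemma Cov.chern_zero {m G : Type*} [Fintype m] [DecidableEq m] [NormedAddCommGroup G]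
    [NormedSpace ℂ G] (H : G → Matrix m m ℂ) (z : G) : Cov.chern H 0 z = 0 := by
  have h1 : ∀ (f : G → ℂ) (w : G), Cov.dz f 0 w = 0 := fun f w => by simp [Cov.dz]
  have h2 : ∀ (f : G → ℂ) (w : G), Cov.dzbar f 0 w = 0 := fun f w => by simp [Cov.dzbar]
  have e1 : Cov.dzM H 0 z = 0 := by ext i j; exact h1 _ _
  have e2 : ∀ A : G → Matrix m m ℂ, Cov.dzbarM A 0 z = 0 := fun A => by ext i j; exact h2 _ _
  simp [Cov.chern, e1, e2]

/-- The pullback of a Griffiths positive metric, in any holomorphic frame. -/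
theorem HermMetric.GriffithsPositive.pullback {h : HermMetric E} (hpos : h.GriffithsPositive)
    (a : E.ι) {φ : F → X} {y : F} (hφc : ContinuousAt φ y) (hy : φ y ∈ E.core.baseSet a)
    (hφ : AnalyticAt ℂ (fun z => chartAt (Cn n) (φ y) (φ z)) y)
    {G : F → Matrix (Fin r) (Fin r) ℂ} (hG : ∀ i j, AnalyticAt ℂ (fun z => G z i j) y)
    (hunit : IsUnit (G y).det) (η : F) {v : Fin r → ℂ} (hv : v ≠ 0) :
    0 ≤ (star v ⬝ᵥ (Cov.chern (fun z => (G z)ᴴ * h.h a (φ z) * G z) η y *ᵥ v)).re ∧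
      (fderiv ℂ (fun z => chartAt (Cn n) (φ y) (φ z)) y η ≠ 0 →
        0 < (star v ⬝ᵥ (Cov.chern (fun z => (G z)ᴴ * h.h a (φ z) * G z) η y *ᵥ v)).re) := by
  set c := chartAt (Cn n) (φ y)
  set ψ : F → Cn n := fun z => c (φ z)
  set K : Cn n → Matrix (Fin r) (Fin r) ℂ := fun w => h.h a (c.symm w)
  have hK : ∀ i j, ContDiffAt ℝ 2 (fun w => K w i j) (ψ y) := h.contDiffAt_chart a hy
  have hev : (fun z => (G z)ᴴ * h.h a (φ z) * G z) =ᶠ[𝓝 y]
      fun z => (G z)ᴴ * K (ψ z) * G z := by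
    filter_upwards [hφc (c.open_source.mem_nhds (mem_chart_source _ (φ y)))] with z hz
    show _ = (G z)ᴴ * h.h a (c.symm (c (φ z))) * G z
    rw [c.left_inv hz]
  have hψr : ContDiffAt ℝ 2 ψ y := (hφ.contDiffAt (n := 2)).restrict_scalars ℝ
  have hKψ : ∀ i j, ContDiffAt ℝ 2 (fun z => K (ψ z) i j) y := fun i j => (hK i j).comp y hψr
  have hKy : K (ψ y) = h.h a (φ y) := by
    show h.h a (c.symm (c (φ y))) = _
    rw [c.left_inv (mem_chart_source _ _)]
  have hKu : IsUnit (K (ψ y)).det := by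
    rw [hKy, ← Matrix.isUnit_iff_isUnit_det]; exact (h.pos a _ hy).isUnit
  have hψd : ∀ᶠ z in 𝓝 y, DifferentiableAt ℂ ψ z :=
    hφ.eventually_analyticAt.mono fun z hz => hz.differentiableAt
  have hψ' : DifferentiableAt ℂ (fun z => fderiv ℂ ψ z η) y :=
    hφ.fderiv.differentiableAt.clm_apply (differentiableAt_const η)
  have e1 := Cov.chern_frame (ξ := η) (H := fun z => (G z)ᴴ * h.h a (φ z) * G z)
    (fun i j => (hG i j).eventually_analyticAt.mono fun z hz => hz.differentiableAt)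
    (fun i j => (hG i j).fderiv.differentiableAt.clm_apply (differentiableAt_const η))
    hKψ hunit hKu hev
  rw [Cov.chern_comp hψd hψ' hK] at e1
  rw [e1]
  have key : star v ⬝ᵥ (((G y)ᴴ * Cov.chern K (fderiv ℂ ψ y η) (ψ y) * G y) *ᵥ v) =
      star (G y *ᵥ v) ⬝ᵥ (Cov.chern K (fderiv ℂ ψ y η) (ψ y) *ᵥ (G y *ᵥ v)) := by
    rw [Matrix.star_mulVec, ← Matrix.mulVec_mulVec, ← Matrix.mulVec_mulVec,
      ← Matrix.dotProduct_mulVec]
  rw [key]
  have hw : G y *ᵥ v ≠ 0 := fun h0 => hv (by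
    have h1 := congrArg ((G y)⁻¹ *ᵥ ·) h0
    simpa [Matrix.mulVec_mulVec, Matrix.nonsing_inv_mul _ hunit] using h1)
  have hpos' : ∀ ξ : Cn n, ξ ≠ 0 → 0 < (star (G y *ᵥ v) ⬝ᵥ
      (Cov.chern K ξ (ψ y) *ᵥ (G y *ᵥ v))).re := fun ξ hξ => hpos a (φ y) hy ξ hξ _ hw
  refine ⟨?_, hpos' _⟩
  by_cases h0 : fderiv ℂ ψ y η = 0
  · rw [h0, Cov.chern_zero, Matrix.zero_mulVec, dotProduct_zero, Complex.zero_re]
  · exact (hpos' _ h0).le

/-- A holomorphic map is analytic in the chart at its value. -/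
lemma analyticAt_chart_comp [IsManifold 𝓘(ℂ, Cn n) ω X] [CompleteSpace F] {φ : F → X} {y : F}
    (hφ : ContMDiffAt 𝓘(ℂ, F) 𝓘(ℂ, Cn n) ω φ y) :
    AnalyticAt ℂ (fun z => chartAt (Cn n) (φ y) (φ z)) y := by
  have h := (contMDiffAt_iff.1 hφ).2
  simp only [extChartAt, OpenPartialHomeomorph.extend, chartAt_self_eq, modelWithCornersSelf_coe,
    OpenPartialHomeomorph.refl_partialEquiv] at h
  exact (contDiffWithinAt_univ.1 (by simpa [Function.comp_def] using h) :
    ContDiffAt ℂ ω (fun z => chartAt (Cn n) (φ y) (φ z)) y).analyticAt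

end Vale.Agent.P296
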