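import Vale.Agent.P296.Chern
import Vale.Agent.P296.Analysis.PullbackPositive

/-!
# P296: a Griffiths positive metric has subharmonic dual norms

Along a holomorphic map to `X`, in a holomorphic frame, the squared dual norm of a holomorphic row
satisfies the sub-mean value inequality on every complex line.
-/

noncomputable section

namespace Vale.Agent.P296

open scoped Manifold ContDiff Topology
open Matrix Filter
open scoped ComplexOrder

section Form

variable {F : Type*} [NormedAddCommGroup F] [NormedSpace ℂ F] {m : Type*} [Fintype m]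

omit [Fintype m] in
lemma dzbar_dz_eq {f : F → ℂ} {z : F} (hf : ContDiffAt ℝ 2 f z) (ξ : F) :
    Cov.dzbar (fun w => Cov.dz f ξ w) ξ z = (1 / 4 : ℂ) * (d2 f z ξ + d2 f z (Complex.I • ξ)) := by
  have hd : DifferentiableAt ℝ (fderiv ℝ f) z :=
    (hf.fderiv_right (m := 1) (by norm_num)).differentiableAt one_ne_zero
  have ha : ∀ a b : F, fderiv ℝ (fun w => fderiv ℝ f w a) z b = fderiv ℝ (fderiv ℝ f) z b a :=
    fun a b => by
      rw [fderiv_clm_apply hd (differentiableAt_const a)]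
      simp
  have hsym : fderiv ℝ (fderiv ℝ f) z ξ (Complex.I • ξ) =
      fderiv ℝ (fderiv ℝ f) z (Complex.I • ξ) ξ :=
    (hf.isSymmSndFDerivAt (by simp)).eq ξ (Complex.I • ξ)
  have hg : ∀ b : F, fderiv ℝ (fun w => Cov.dz f ξ w) z b =
      (fderiv ℝ (fderiv ℝ f) z b ξ - Complex.I * fderiv ℝ (fderiv ℝ f) z b (Complex.I • ξ)) / 2 :=
    fun b => by
      have h1 := Cov.differentiableAt_fderiv_apply hf ξ
      have h2 := Cov.differentiableAt_fderiv_apply hf (Complex.I • ξ)
      have h : HasFDerivAt (fun w => (fderiv ℝ f w ξ - Complex.I * fderiv ℝ f w (Complex.I • ξ)) * 2⁻¹)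
          _ z := (h1.hasFDerivAt.sub (h2.hasFDerivAt.const_mul Complex.I)).mul_const (2⁻¹ : ℂ)
      rw [show (fun w => Cov.dz f ξ w) = fun w => (fderiv ℝ f w ξ -
        Complex.I * fderiv ℝ f w (Complex.I • ξ)) * 2⁻¹ from funext fun w => div_eq_mul_inv _ _,
        HasFDerivAt.fderiv h]
      simp [ha]
      ring
  rw [Cov.dzbar, hg, hg, d2, d2, hsym]
  linear_combination (1 / 4 : ℂ) *
    (-(fderiv ℝ (fderiv ℝ f) z (Complex.I • ξ) (Complex.I • ξ))) * Complex.I_mul_I

variable [DecidableEq m]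

/-- The two forms of the Chern curvature agree. -/
lemma curvForm_eq_chern {H : F → Matrix m m ℂ} {z : F}
    (hH : ∀ i j, ContDiffAt ℝ 2 (fun w => H w i j) z) (ξ : F) (v : m → ℂ) :
    curvForm H z ξ v = (star v ⬝ᵥ (Cov.chern H ξ z *ᵥ v)).re := by
  have e1 : Cov.dzM H ξ z = dH H z ξ := by
    ext i j; simp [Cov.dzM, Cov.dz, dH, dMat]; ring
  have e2 : Cov.dzbarM H ξ z = dbH H z ξ := by
    ext i j; simp [Cov.dzbarM, Cov.dzbar, dbH, dMat]; ring
  have e3 : Cov.dzbarM (fun w => Cov.dzM H ξ w) ξ z = ddH H z ξ := by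
    ext i j
    simp only [Cov.dzbarM, Cov.dzM, Matrix.of_apply]
    rw [dzbar_dz_eq (hH i j) ξ]
    simp [ddH, d2Mat]
  rw [curvForm, Cov.chern, e1, e2, e3, neg_add_eq_sub]

/-- A nonnegative Chern form makes the dual norm of a holomorphic row sub-mean on lines. -/
theorem dualSq_subMean_of_chern {U : Set F} (hU : IsOpen U) {H : F → Matrix m m ℂ}
    {τ : F → m → ℂ} (hH : ∀ i j, ContDiffOn ℝ 2 (fun w => H w i j) U)
    (hpos : ∀ w ∈ U, (H w).PosDef) (hτ : ∀ i, ∀ w ∈ U, AnalyticAt ℂ (fun x => τ x i) w)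
    (hcurv : ∀ w ∈ U, ∀ ξ v, 0 ≤ (star v ⬝ᵥ (Cov.chern H ξ w *ᵥ v)).re) {z ξ : F} {c : ℂ} {R : ℝ}
    (hR : 0 ≤ R) (hball : ∀ t ∈ Metric.closedBall c R, z + t • ξ ∈ U) :
    dualSq H τ (z + c • ξ) ≤ Real.circleAverage (fun t => dualSq H τ (z + t • ξ)) c R :=
  dualSq_le_circleAverage hU hH hpos
    (fun i w hw => (((hτ i w hw).contDiffAt (n := 2)).restrict_scalars ℝ).contDiffWithinAt)
    (fun i w hw => (hτ i w hw).differentiableAt.differentiableWithinAt)
    (fun w hw η v => by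
      rw [curvForm_eq_chern (fun i j => (hH i j).contDiffAt (hU.mem_nhds hw))]
      exact hcurv w hw η v) hR hball

end Form

variable {n r : ℕ} {X : Type} [TopologicalSpace X] [ChartedSpace (Cn n) X]
  {E : HolBundle n r X} {F : Type*} [NormedAddCommGroup F] [NormedSpace ℂ F]

/-- Along a holomorphic map, in a holomorphic frame, the dual norm of a holomorphic row of a
Griffiths positive metric is sub-mean on every complex line. -/
theorem HermMetric.GriffithsPositive.dual_subMean {h : HermMetric E} (hpos : h.GriffithsPositive)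
    (a : E.ι) {U : Set F} (hU : IsOpen U) {φ : F → X} (hφc : ∀ w ∈ U, ContinuousAt φ w)
    (hφm : ∀ w ∈ U, φ w ∈ E.core.baseSet a)
    (hφ : ∀ w ∈ U, AnalyticAt ℂ (fun z => chartAt (Cn n) (φ w) (φ z)) w)
    {G : F → Matrix (Fin r) (Fin r) ℂ}
    (hG : ∀ i j, ∀ w ∈ U, AnalyticAt ℂ (fun z => G z i j) w)
    (hunit : ∀ w ∈ U, IsUnit (G w).det) {τ : F → Fin r → ℂ}
    (hτ : ∀ i, ∀ w ∈ U, AnalyticAt ℂ (fun x => τ x i) w) {z ξ : F} {c : ℂ} {R : ℝ} (hR : 0 ≤ R)
    (hball : ∀ t ∈ Metric.closedBall c R, z + t • ξ ∈ U) :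
    dualSq (fun w => (G w)ᴴ * h.h a (φ w) * G w) τ (z + c • ξ) ≤
      Real.circleAverage (fun t => dualSq (fun w => (G w)ᴴ * h.h a (φ w) * G w) τ (z + t • ξ))
        c R := by
  set H : F → Matrix (Fin r) (Fin r) ℂ := fun w => (G w)ᴴ * h.h a (φ w) * G w
  have hH : ∀ i j, ContDiffOn ℝ 2 (fun w => H w i j) U := fun i j w hw => by
    set ch := chartAt (Cn n) (φ w)
    have hK : ∀ k l, ContDiffAt ℝ 2 (fun x => h.h a (φ x) k l) w := fun k l => by
      have h0 := (h.contDiffAt_chart a (hφm w hw) k l).comp w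
        (((hφ w hw).contDiffAt (n := 2)).restrict_scalars ℝ)
      have h1 : ContDiffAt ℝ 2 (fun x => h.h a (ch.symm (ch (φ x))) k l) w := h0
      refine h1.congr_of_eventuallyEq ?_
      filter_upwards [hφc w hw (ch.open_source.mem_nhds (mem_chart_source _ (φ w)))] with x hx
      rw [ch.left_inv hx]
    have hGr : ∀ k l, ContDiffAt ℝ 2 (fun x => G x k l) w := fun k l =>
      ((hG k l w hw).contDiffAt (n := 2)).restrict_scalars ℝ
    refine ContDiffAt.contDiffWithinAt ?_
    simp only [H, Matrix.mul_apply, Matrix.conjTranspose_apply]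
    exact ContDiffAt.sum fun k _ => (ContDiffAt.sum fun l _ =>
      (Complex.conjCLE.contDiff.contDiffAt.comp w (hGr l i)).mul (hK l k)).mul (hGr k j)
  refine dualSq_subMean_of_chern hU hH (fun w hw => ?_) hτ (fun w hw η v => ?_) hR hball
  · exact (h.pos a _ (hφm w hw)).conjTranspose_mul_mul_same
      (Matrix.mulVec_injective_iff_isUnit.2 ((Matrix.isUnit_iff_isUnit_det _).2 (hunit w hw)))
  · rcases eq_or_ne v 0 with rfl | hv
    · simp
    · exact (hpos.pullback a (hφc w hw) (hφm w hw) (hφ w hw) (fun i j => hG i j w hw)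
        (hunit w hw) η hv).1

end Vale.Agent.P296
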