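import Vale.Agent.P296.Chern
import Vale.Agent.P296.Periodic

/-!
# P296: twice differentiable plurisubharmonic functions

A `C²` function is psh when its Levi form is nonnegative. This follows from the sub-mean value
inequality on affine lines, is preserved by holomorphic maps, and gives the sub-mean value
inequality on holomorphic discs.
-/

noncomputable section

namespace Vale.Agent.P296

open Filter Topology Metric Real

variable {E F : Type*} [NormedAddCommGroup E] [NormedSpace ℂ E] [NormedAddCommGroup F]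
  [NormedSpace ℂ F]

/-- A twice differentiable plurisubharmonic function. -/
structure Psh2 (f : E → ℝ) : Prop where
  smooth : ContDiff ℝ 2 f
  levi : ∀ p a, 0 ≤ d2 f p a + d2 f p (Complex.I • a)

/-- The chain rule for second order jets. -/
lemma Jet.comp {G : Type*} [NormedAddCommGroup G] [NormedSpace ℝ G] {g : ℝ → E} {a b c : E}
    {f : E → G} (hf : ContDiffAt ℝ 2 f a) (hg : Jet g a b c) :
    Jet (fun s => f (g s)) (f a) (fderiv ℝ f a b) (d2 f a b + fderiv ℝ f a c) := by
  obtain ⟨g', g0, g1, gd, g2⟩ := hg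
  subst g0
  refine ⟨fun s => fderiv ℝ f (g s) (g' s), rfl, by simp only [g1], ?_, ?_⟩
  · filter_upwards [gd, gd.self_of_nhds.continuousAt.tendsto.eventually (hf.eventually (by simp))]
      with s hs hs'
    exact (hs'.differentiableAt (by norm_num)).hasFDerivAt.comp_hasDerivAt s hs
  · have hd : DifferentiableAt ℝ (fderiv ℝ f) (g 0) :=
      (hf.fderiv_right (m := 1) (by norm_num)).differentiableAt one_ne_zero
    have h := (hd.hasFDerivAt.comp_hasDerivAt (0 : ℝ) gd.self_of_nhds).clm_apply g2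
    simpa [d2, g1] using h

/-- The jet of a holomorphic curve along a real line through zero. -/
lemma Jet.analytic' {φ : ℂ → E} [CompleteSpace E] (hφ : AnalyticAt ℂ φ 0) (k : ℂ) :
    Jet (fun s : ℝ => φ ((s : ℂ) * k)) (φ 0) (k • deriv φ 0) ((k * k) • deriv (deriv φ) 0) := by
  have hl : ∀ s : ℝ, HasDerivAt (fun u : ℝ => (u : ℂ) * k) k s := fun s => by
    simpa using ((hasDerivAt_id s).ofReal_comp).mul_const k
  refine ⟨fun s => k • deriv φ ((s : ℂ) * k), by simp, by simp, ?_, ?_⟩
  · have ht : Tendsto (fun s : ℝ => (s : ℂ) * k) (𝓝 0) (𝓝 0) := by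
      simpa using (hl 0).continuousAt.tendsto
    refine (ht.eventually hφ.eventually_analyticAt).mono fun s hs => ?_
    have h := (hs.differentiableAt.hasDerivAt.hasFDerivAt.restrictScalars ℝ).comp_hasDerivAt s (hl s)
    simpa [Function.comp_def] using h
  · have h0 : HasDerivAt (deriv φ) (deriv (deriv φ) 0) (((0 : ℝ) : ℂ) * k) := by
      simpa using hφ.deriv.differentiableAt.hasDerivAt
    have h := ((h0.hasFDerivAt.restrictScalars ℝ).comp_hasDerivAt (0 : ℝ) (hl 0)).const_smul k
    simpa [Function.comp_def, smul_smul, Pi.smul_def] using h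

/-- The Laplacian along a holomorphic curve only sees the Levi form. -/
theorem levi_comp {f : E → ℝ} [CompleteSpace E] {Φ : F → E} {w : F} (hf : ContDiffAt ℝ 2 f (Φ w))
    (hΦ : AnalyticAt ℂ Φ w) (a : F)
    (hlevi : ∀ b, 0 ≤ d2 f (Φ w) b + d2 f (Φ w) (Complex.I • b)) :
    0 ≤ d2 (fun x => f (Φ x)) w a + d2 (fun x => f (Φ x)) w (Complex.I • a) := by
  set φ : ℂ → E := fun ζ => Φ (w + ζ • a)
  have hφ : AnalyticAt ℂ φ 0 :=
    AnalyticAt.comp' (g := Φ) (f := fun ζ : ℂ => w + ζ • a) (by simpa using hΦ) (by fun_prop)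
  have hf' : ContDiffAt ℝ 2 f (φ 0) := by simpa [φ] using hf
  have hc : ContDiffAt ℝ 2 (fun x => f (Φ x)) w :=
    hf.comp w ((hΦ.contDiffAt).restrict_scalars ℝ)
  have key : ∀ k : ℂ, d2 (fun x => f (Φ x)) w (k • a) =
      d2 f (φ 0) (k • deriv φ 0) + fderiv ℝ f (φ 0) ((k * k) • deriv (deriv φ) 0) := fun k =>
    (Jet.unique (Jet.line hc (k • a)) ((Jet.comp hf' (Jet.analytic' hφ k)).congr
      (Eventually.of_forall fun s => by
        simp only [φ, mul_smul, Complex.coe_smul]))).2
  have h1 := key 1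
  have h2 := key Complex.I
  rw [one_smul] at h1
  rw [h1, h2, Complex.I_mul_I]
  simp only [one_mul, one_smul, neg_smul, map_neg]
  have := hlevi (deriv φ 0)
  simp only [φ, zero_smul, add_zero] at this ⊢
  linarith

/-- A function which locally is a psh function after a holomorphic map is psh. -/
theorem Psh2.of_local [CompleteSpace E] {g : F → ℝ}
    (h : ∀ w, ∃ (f : E → ℝ) (Φ : F → E), Psh2 f ∧ AnalyticAt ℂ Φ w ∧
      g =ᶠ[𝓝 w] fun x => f (Φ x)) : Psh2 g := by
  have hs : ∀ w, ContDiffAt ℝ 2 g w := fun w => by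
    obtain ⟨f, Φ, hf, hΦ, he⟩ := h w
    exact ((hf.smooth.contDiffAt).comp w ((hΦ.contDiffAt).restrict_scalars ℝ)).congr_of_eventuallyEq he
  refine ⟨contDiff_iff_contDiffAt.2 hs, fun w a => ?_⟩
  obtain ⟨f, Φ, hf, hΦ, he⟩ := h w
  have e : ∀ b, d2 g w b = d2 (fun x => f (Φ x)) w b := fun b => by
    simp only [d2, (he.fderiv).fderiv_eq]
  rw [e, e]
  exact levi_comp hf.smooth.contDiffAt hΦ a (hf.levi _)

/-- Composition with an everywhere holomorphic map. -/
theorem Psh2.comp [CompleteSpace E] {f : E → ℝ} (hf : Psh2 f) {Φ : F → E}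
    (hΦ : ∀ w, AnalyticAt ℂ Φ w) : Psh2 fun x => f (Φ x) :=
  Psh2.of_local fun w => ⟨f, Φ, hf, hΦ w, Eventually.of_forall fun _ => rfl⟩

/-- The sub-mean value inequality on affine lines gives a nonnegative Levi form. -/
theorem Psh2.of_subMean {f : E → ℝ} (hf : ContDiff ℝ 2 f)
    (h : ∀ p a : E, SubMean fun ζ : ℂ => f (p + ζ • a)) : Psh2 f := by
  refine ⟨hf, fun p a => ?_⟩
  set g : ℂ → ℝ := fun ζ => f (p + ζ • a)
  have hg : ContDiff ℝ 2 g := hf.comp (contDiff_const.add (contDiff_id.smul contDiff_const))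
  have e : ∀ b : ℂ, d2 g 0 b = d2 f p (b • a) := fun b =>
    (Jet.unique (Jet.line hg.contDiffAt b) ((Jet.line hf.contDiffAt (b • a)).congr
      (Eventually.of_forall fun s => by simp [g, mul_smul]))).2
  by_contra hneg
  have hL : d2 g 0 1 + d2 g 0 Complex.I < 0 := by
    rw [e, e, one_smul]; exact not_le.1 hneg
  set L := d2 g 0 1 + d2 g 0 Complex.I
  set ε := -L / 8
  have hε : 0 < ε := by simp only [ε]; linarith
  have hc := continuousOn_d2 isOpen_univ hg.contDiffOn
  have hcont : Continuous fun w : ℂ => d2 g w 1 + d2 g w Complex.I :=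
    (hc.comp_continuous (f := fun w : ℂ => (w, (1 : ℂ))) (by fun_prop) fun w => by simp).add
      (hc.comp_continuous (f := fun w : ℂ => (w, Complex.I)) (by fun_prop) fun w => by simp)
  obtain ⟨r, hr, hrb⟩ := Metric.eventually_nhds_iff.1
    ((hcont.tendsto 0).eventually (gt_mem_nhds (show L < -(4 * ε) by simp only [ε]; linarith)))
  set k : ℂ → ℝ := fun ζ => -g ζ + -ε * ‖ζ‖ ^ 2
  have hk : ContDiff ℝ 2 k := hg.neg.add (contDiff_const.mul (contDiff_norm_sq ℂ))
  have hkd : ∀ w b : ℂ, d2 k w b = -d2 g w b + -ε * (2 * ‖b‖ ^ 2) := fun w b => by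
    have j2 := (jet_normSq (Jet.affine w b)).map ((-ε) • ContinuousLinearMap.id ℝ ℝ)
    have j1 := (Jet.line (hg.contDiffAt (x := w)) b).map (-ContinuousLinearMap.id ℝ ℝ)
    have h3 := (Jet.unique (Jet.line (hk.contDiffAt (x := w)) b) ((j1.add j2).congr
      (Eventually.of_forall fun s => by simp [k]))).2
    simpa using h3
  have hR : 0 < r / 2 := half_pos hr
  have hle := le_circleAverage_of_d2 (U := ball 0 r) isOpen_ball hk.contDiffOn hR.le
    (closedBall_subset_ball (half_lt_self hr)) fun w hw => by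
      have h1 : d2 g w 1 + d2 g w Complex.I < -(4 * ε) := hrb (mem_ball.1 hw)
      rw [hkd, hkd, norm_one, Complex.norm_I]
      linarith
  have hgi : CircleIntegrable g 0 (r / 2) :=
    (hg.continuous.comp (continuous_circleMap _ _)).intervalIntegrable _ _
  have hcong : circleAverage k 0 (r / 2) =
      circleAverage (fun ζ => -g ζ + -ε * (r / 2) ^ 2) 0 (r / 2) :=
    circleAverage_congr_sphere fun z hz => by
      rw [abs_of_pos hR, mem_sphere_zero_iff_norm] at hz
      simp [k, hz]
  have hneg' : circleAverage (fun ζ => -g ζ) 0 (r / 2) = -circleAverage g 0 (r / 2) := by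
    simp only [circleAverage_def, intervalIntegral.integral_neg, smul_neg]
  have hgn : CircleIntegrable (fun ζ => -g ζ) 0 (r / 2) := hgi.neg
  rw [hcong, circleAverage_fun_add hgn (circleIntegrable_const _ _ _), circleAverage_const,
    hneg'] at hle
  have hsub := h p a 0 (r / 2) hR
  have hk0 : k 0 = -g 0 := by simp [k]
  rw [hk0] at hle
  have : 0 < ε * (r / 2) ^ 2 := mul_pos hε (pow_pos hR 2)
  simp only [g] at hle hsub
  linarith

/-- Sums of psh functions. -/
theorem Psh2.sum {ι : Type*} (t : Finset ι) {f : ι → E → ℝ} (hf : ∀ i ∈ t, Psh2 (f i)) :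
    Psh2 fun x => ∑ i ∈ t, f i x := by
  have hs : ContDiff ℝ 2 fun x => ∑ i ∈ t, f i x := ContDiff.sum fun i hi => (hf i hi).smooth
  refine ⟨hs, fun p a => ?_⟩
  have e : ∀ b, d2 (fun x => ∑ i ∈ t, f i x) p b = ∑ i ∈ t, d2 (f i) p b := fun b =>
    (Jet.unique (Jet.line hs.contDiffAt b)
      (Jet.sum t fun i hi => Jet.line (hf i hi).smooth.contDiffAt b)).2
  rw [e, e, ← Finset.sum_add_distrib]
  exact Finset.sum_nonneg fun i hi => (hf i hi).levi p a

/-- The sub-mean value inequality along holomorphic discs. -/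
theorem Psh2.le_circleAverage [CompleteSpace E] {f : E → ℝ} (hf : Psh2 f) {γ : ℂ → E} {c : ℂ}
    {R : ℝ} (hR : 0 < R) (hγ : DiffContOnCl ℂ γ (ball c R)) :
    f (γ c) ≤ circleAverage (fun ζ => f (γ ζ)) c R := by
  have hcl : ContinuousOn γ (closedBall c R) := by
    rw [← closure_ball c hR.ne']
    exact hγ.continuousOn
  have hsmall : ∀ r ∈ Set.Ioo 0 R, f (γ c) ≤ circleAverage (fun ζ => f (γ ζ)) c r := fun r hr => by
    refine le_circleAverage_of_d2 (f := fun ζ => f (γ ζ)) (U := ball c R) isOpen_ball (fun w hw => ?_) hr.1.le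
      (closedBall_subset_ball hr.2) fun w hw => ?_
    · exact (hf.smooth.contDiffAt.comp w
        (((hγ.differentiableOn.analyticAt (isOpen_ball.mem_nhds hw)).contDiffAt).restrict_scalars
          ℝ)).contDiffWithinAt
    · simpa using levi_comp hf.smooth.contDiffAt
        (hγ.differentiableOn.analyticAt (isOpen_ball.mem_nhds hw)) (1 : ℂ) (hf.levi (γ w))
  have hcont : ContinuousOn (fun r => circleAverage (fun ζ => f (γ ζ)) c r) (Set.Icc 0 R) := by
    have h1 : ContinuousOn (fun r => ∫ θ in (0 : ℝ)..2 * π, f (γ (circleMap c r θ)))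
        (Set.Icc 0 R) := by
      rw [continuousOn_iff_continuous_domRestrict]
      refine intervalIntegral.continuous_parametric_intervalIntegral_of_continuous'
        (f := fun (r : Set.Icc (0 : ℝ) R) θ => f (γ (circleMap c r θ))) ?_ _ _
      refine hf.smooth.continuous.comp (hcl.comp_continuous (f := fun q : Set.Icc (0 : ℝ) R × ℝ =>
        circleMap c q.1 q.2) ?_ fun q => ?_)
      · exact continuous_const.add ((Complex.continuous_ofReal.comp
          (continuous_subtype_val.comp continuous_fst)).mul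
            (Complex.continuous_exp.comp ((Complex.continuous_ofReal.comp continuous_snd).mul
              continuous_const)))
      · exact closedBall_subset_closedBall q.1.2.2
          (sphere_subset_closedBall (circleMap_mem_sphere c q.1.2.1 q.2))
    exact h1.const_smul (2 * π)⁻¹
  have hne : (𝓝[Set.Ioo 0 R] R).NeBot :=
    mem_closure_iff_nhdsWithin_neBot.1 (by rw [closure_Ioo hR.ne]; exact ⟨hR.le, le_rfl⟩)
  exact ge_of_tendsto ((hcont R ⟨hR.le, le_rfl⟩).mono Set.Ioo_subset_Icc_self)
    (eventually_mem_nhdsWithin.mono hsmall)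

end Vale.Agent.P296
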