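import Mathlib

/-!
# P296: limits of bounded families of metrics

Mollified Gram matrices of a locally uniformly bounded family converge along a subsequence, locally
equicontinuously, at every point and for countably many kernels at once; circle averages and the
sub-mean value inequality pass to such limits and to mollifications.
-/

noncomputable section

namespace Vale.Agent.P296

open Filter Topology MeasureTheory Metric Set

/-- A pointwise bounded equicontinuous sequence on a separable space has a subsequence converging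
at every point, to a continuous limit. -/
theorem exists_subseq_tendsto_of_equicontinuous {X F : Type*} [TopologicalSpace X]
    [TopologicalSpace.SeparableSpace X] [NormedAddCommGroup F] [ProperSpace F] {f : ℕ → X → F}
    (hf : Equicontinuous f) (hb : ∀ x, ∃ C, ∀ k, ‖f k x‖ ≤ C) :
    ∃ φ : ℕ → ℕ, StrictMono φ ∧
      ∃ g : X → F, Continuous g ∧ ∀ x, Tendsto (fun j => f (φ j) x) atTop (𝓝 (g x)) := by
  rcases isEmpty_or_nonempty X with hX | hX
  · exact ⟨id, strictMono_id, fun x => isEmptyElim x, continuous_of_discreteTopology,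
      fun x => isEmptyElim x⟩
  set u := TopologicalSpace.denseSeq X
  choose C hC using fun n => hb (u n)
  obtain ⟨a, -, φ, hφ, hlim⟩ :=
    (isCompact_univ_pi fun n => isCompact_closedBall (0 : F) (C n)).tendsto_subseq
      (x := fun k n => f k (u n)) fun k n _ => by simpa using hC n k
  rw [tendsto_pi_nhds] at hlim
  have hclose : ∀ x, ∀ ε > 0, ∀ᶠ y in 𝓝 x, ∀ k, dist (f k x) (f k y) < ε := fun x ε hε =>
    hf x _ (dist_mem_uniformity hε)
  have hcauchy : ∀ x, ∃ v, Tendsto (fun j => f (φ j) x) atTop (𝓝 v) := fun x => by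
    refine cauchySeq_tendsto_of_complete (Metric.cauchySeq_iff.2 fun ε hε => ?_)
    obtain ⟨U, hU, hUo, hxU⟩ := eventually_nhds_iff.1 (hclose x (ε / 3) (by linarith))
    obtain ⟨n, hn⟩ := (TopologicalSpace.denseRange_denseSeq X).exists_mem_open hUo ⟨x, hxU⟩
    obtain ⟨N, hN⟩ := Metric.cauchySeq_iff.1 (hlim n).cauchySeq (ε / 3) (by linarith)
    refine ⟨N, fun i hi j hj => ?_⟩
    have h1 := hU _ hn (φ i)
    have h2 := hU _ hn (φ j)
    have h3 : dist (f (φ i) (u n)) (f (φ j) (u n)) < ε / 3 := hN i hi j hj
    linarith [dist_triangle4 (f (φ i) x) (f (φ i) (u n)) (f (φ j) (u n)) (f (φ j) x),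
      dist_comm (f (φ j) x) (f (φ j) (u n))]
  choose g hg using hcauchy
  refine ⟨φ, hφ, g, continuous_iff_continuousAt.2 fun x => ?_, hg⟩
  refine Metric.tendsto_nhds.2 fun ε hε => ?_
  filter_upwards [hclose x (ε / 2) (half_pos hε)] with y hy
  rw [dist_comm]
  exact (le_of_tendsto' ((hg x).dist (hg y)) fun j => (hy (φ j)).le).trans_lt (half_lt_self hε)

variable {E F : Type*} [NormedAddCommGroup E] [ProperSpace E] [MeasurableSpace E] [BorelSpace E]
  [NormedAddCommGroup F] [NormedSpace ℝ F] {μ : Measure E} [IsFiniteMeasureOnCompacts μ]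

/-- The average of `g` against the kernel `ρ` moved to `x`. -/
def mollify (μ : Measure E) (ρ : E → ℝ) (g : E → F) (x : E) : F := ∫ y, ρ (y - x) • g y ∂μ

omit [ProperSpace E] [MeasurableSpace E] [BorelSpace E] in
/-- A translate of a compactly supported kernel is compactly supported. -/
theorem hasCompactSupport_shift {ρ : E → ℝ} (hs : HasCompactSupport ρ) (z : E) :
    HasCompactSupport fun y => ρ (y - z) := by
  simp only [sub_eq_add_neg]
  exact hs.comp_homeomorph (Homeomorph.addRight (-z))

/-- Mollifications of a locally uniformly bounded family are equicontinuous. -/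
theorem equicontinuous_mollify {ι : Type*} {ρ : E → ℝ} (hρ : Continuous ρ)
    (hs : HasCompactSupport ρ) {g : ι → E → F} (hg : ∀ k, Continuous (g k))
    (hb : ∀ K, IsCompact K → ∃ C, ∀ k, ∀ y ∈ K, ‖g k y‖ ≤ C) :
    Equicontinuous fun k => mollify μ ρ (g k) := by
  intro x₀ U hU
  obtain ⟨ε, hε, hεU⟩ := Metric.mem_uniformity_dist.1 hU
  set K : Set E := (fun p : E × E => p.1 + p.2) '' (closedBall x₀ 1 ×ˢ tsupport ρ)
  have hK : IsCompact K :=
    ((isCompact_closedBall x₀ 1).prod hs.isCompact).image (continuous_fst.add continuous_snd)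
  obtain ⟨C, hC⟩ := hb K hK
  set A : ℝ := max C 0 * μ.real K + 1
  have hA : 0 < A := by positivity
  obtain ⟨δ, hδ, hδρ⟩ := Metric.uniformContinuous_iff.1 (hs.uniformContinuous_of_continuous hρ)
    (ε / A) (div_pos hε hA)
  filter_upwards [ball_mem_nhds x₀ (lt_min hδ one_pos)] with x hx k
  refine hεU ?_
  rw [mem_ball] at hx
  have hzero : ∀ z ∈ closedBall x₀ 1, ∀ y ∉ K, ρ (y - z) = 0 := fun z hz y hy =>
    image_eq_zero_of_notMem_tsupport fun h => hy ⟨(z, y - z), ⟨hz, h⟩, by simp⟩
  have hint : ∀ z, Integrable (fun y => ρ (y - z) • g k y) μ := fun z =>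
    ((hρ.comp (continuous_id.sub continuous_const)).smul (hg k)).integrable_of_hasCompactSupport
      ((hasCompactSupport_shift hs z).smul_right)
  rw [dist_eq_norm, mollify, mollify, ← integral_sub (hint x₀) (hint x),
    ← setIntegral_eq_integral_of_forall_compl_eq_zero (s := K) fun y hy => by
      rw [hzero x₀ (mem_closedBall_self zero_le_one) y hy,
        hzero x (mem_closedBall.2 (hx.trans_le (min_le_right _ _)).le) y hy, sub_self]]
  have hbound : ∀ y ∈ K, ‖ρ (y - x₀) • g k y - ρ (y - x) • g k y‖ ≤ ε / A * max C 0 := fun y hy => by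
    rw [← sub_smul, norm_smul, ← dist_eq_norm]
    refine mul_le_mul (hδρ ?_).le ((hC k y hy).trans (le_max_left _ _)) (norm_nonneg _) (by positivity)
    rw [dist_eq_norm, sub_sub_sub_cancel_left, ← dist_eq_norm]
    exact hx.trans_le (min_le_left _ _)
  refine (norm_setIntegral_le_of_norm_le_const hK.measure_lt_top hbound).trans_lt ?_
  calc ε / A * max C 0 * μ.real K = ε * ((A - 1) / A) := by simp only [A]; ring
    _ < ε * 1 := mul_lt_mul_of_pos_left (by rw [div_lt_one hA]; linarith) hε
    _ = ε := mul_one ε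

omit [ProperSpace E] [BorelSpace E] [IsFiniteMeasureOnCompacts μ] in
/-- A mollification is bounded by the bound of the function on the support of the kernel. -/
theorem norm_mollify_le {ρ : E → ℝ} {g : E → F} {C : ℝ} {x : E}
    (hb : ∀ y, ρ (y - x) ≠ 0 → ‖g y‖ ≤ C)
    (hint : Integrable (fun y => ρ (y - x)) μ) :
    ‖mollify μ ρ g x‖ ≤ C * ∫ y, |ρ (y - x)| ∂μ := by
  rw [← integral_const_mul]
  refine norm_integral_le_of_norm_le ((hint.abs).const_mul C) (Eventually.of_forall fun y => ?_)
  rw [norm_smul, Real.norm_eq_abs, mul_comm C]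
  rcases eq_or_ne (ρ (y - x)) 0 with h | h
  · simp [h]
  · exact mul_le_mul_of_nonneg_left (hb y h) (abs_nonneg _)

/-- A subsequence of a locally uniformly bounded family whose mollifications converge at every point, for
countably many kernels at once. -/
theorem exists_mollified_limit [ProperSpace F] [TopologicalSpace.SeparableSpace E]
    (ρ : ℕ → E → ℝ) (hρ : ∀ m, Continuous (ρ m)) (hs : ∀ m, HasCompactSupport (ρ m))
    {g : ℕ → E → F} (hg : ∀ k, Continuous (g k))
    (hb : ∀ K, IsCompact K → ∃ C, ∀ k, ∀ y ∈ K, ‖g k y‖ ≤ C) :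
    ∃ φ : ℕ → ℕ, StrictMono φ ∧ ∃ G : ℕ → E → F, (∀ m, Continuous (G m)) ∧
      ∀ m x, Tendsto (fun j => mollify μ (ρ m) (g (φ j)) x) atTop (𝓝 (G m x)) := by
  obtain ⟨φ, hφ, G, hG, hlim⟩ := exists_subseq_tendsto_of_equicontinuous
    (f := fun k (p : ℕ × E) => mollify μ (ρ p.1) (g k) p.2)
    (fun p U hU => by
      have h := equicontinuous_mollify (μ := μ) (hρ p.1) (hs p.1) hg hb p.2 U hU
      rw [nhds_prod_eq, nhds_discrete, pure_prod, eventually_map]
      exact h)
    (fun p => by
      obtain ⟨C, hC⟩ := hb _ (hasCompactSupport_shift (hs p.1) p.2).isCompact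
      exact ⟨C * ∫ y, |ρ p.1 (y - p.2)| ∂μ, fun k => norm_mollify_le
        (fun y hy => hC k y (subset_tsupport _ hy))
        (((hρ p.1).comp (continuous_id.sub continuous_const)).integrable_of_hasCompactSupport
          (hasCompactSupport_shift (hs p.1) p.2))⟩)
  exact ⟨φ, hφ, fun m x => G (m, x), fun m => hG.comp (continuous_const.prodMk continuous_id),
    fun m x => hlim (m, x)⟩

/-- Circle averages pass to bounded pointwise limits. -/
theorem tendsto_circleAverage {G : Type*} [NormedAddCommGroup G] [NormedSpace ℝ G]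
    {f : ℕ → ℂ → G} {h : ℂ → G} {c : ℂ} {R C : ℝ} (hf : ∀ j, Continuous (f j))
    (hb : ∀ j, ∀ w ∈ sphere c |R|, ‖f j w‖ ≤ C)
    (hlim : ∀ w ∈ sphere c |R|, Tendsto (fun j => f j w) atTop (𝓝 (h w))) :
    Tendsto (fun j => Real.circleAverage (f j) c R) atTop (𝓝 (Real.circleAverage h c R)) := by
  simp only [Real.circleAverage_def]
  refine (intervalIntegral.tendsto_integral_filter_of_dominated_convergence (fun _ => C)
    ?_ ?_ intervalIntegrable_const ?_).const_smul _
  · exact Eventually.of_forall fun j =>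
      ((hf j).comp (continuous_circleMap c R)).aestronglyMeasurable
  · exact Eventually.of_forall fun j => ae_of_all _ fun θ _ => hb j _ (circleMap_mem_sphere' c R θ)
  · exact ae_of_all _ fun θ _ => hlim _ (circleMap_mem_sphere' c R θ)

/-- The sub-mean value inequality passes to bounded pointwise limits. -/
theorem le_circleAverage_of_tendsto {f : ℕ → ℂ → ℝ} {h : ℂ → ℝ} {c : ℂ} {R C : ℝ}
    (hf : ∀ j, Continuous (f j)) (hb : ∀ j, ∀ w ∈ sphere c |R|, ‖f j w‖ ≤ C)
    (hlim : ∀ w ∈ sphere c |R|, Tendsto (fun j => f j w) atTop (𝓝 (h w)))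
    (hc : Tendsto (fun j => f j c) atTop (𝓝 (h c)))
    (hsub : ∀ j, f j c ≤ Real.circleAverage (f j) c R) : h c ≤ Real.circleAverage h c R :=
  le_of_tendsto_of_tendsto' hc (tendsto_circleAverage hf hb hlim) hsub

/-- Averaging a parameter with nonnegative weights preserves the sub-mean value inequality. -/
theorem integral_le_circleAverage_integral [TopologicalSpace.SeparableSpace E] [SFinite μ]
    {g : ℂ → E → ℝ} {ρ : E → ℝ} (hg : Continuous (Function.uncurry g)) (hρ : Continuous ρ)
    (hs : HasCompactSupport ρ) (hρ0 : ∀ y, 0 ≤ ρ y) {c : ℂ} {R : ℝ}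
    (hsub : ∀ y ∈ tsupport ρ, g c y ≤ Real.circleAverage (fun w => g w y) c R) :
    ∫ y, ρ y * g c y ∂μ ≤ Real.circleAverage (fun w => ∫ y, ρ y * g w y ∂μ) c R := by
  have hsupp : ∀ w, Integrable (fun y => ρ y * g w y) μ := fun w =>
    (hρ.mul (hg.comp (continuous_const.prodMk continuous_id))).integrable_of_hasCompactSupport
      hs.mul_right
  set q : ℝ → E → ℝ := fun θ y => ρ y * g (circleMap c R θ) y
  have hq : Continuous (Function.uncurry q) :=
    (hρ.comp continuous_snd).mul (hg.comp (((continuous_circleMap c R).comp continuous_fst).prodMk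
      continuous_snd))
  have hq2 : Integrable (Function.uncurry q) ((volume.restrict (uIoc 0 (2 * Real.pi))).prod μ) := by
    have hI : IntegrableOn (Function.uncurry q) (Icc 0 (2 * Real.pi) ×ˢ tsupport ρ)
        (volume.prod μ) := hq.continuousOn.integrableOn_compact (isCompact_Icc.prod hs.isCompact)
    rw [IntegrableOn, ← Measure.prod_restrict] at hI
    rw [uIoc_of_le Real.two_pi_pos.le]
    refine (integrableOn_iff_integrable_of_support_subset (s := univ ×ˢ tsupport ρ) ?_).1 ?_
    · rintro ⟨θ, y⟩ h
      exact ⟨mem_univ _, subset_tsupport _ fun h0 => h (by simp [q, h0])⟩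
    · rw [IntegrableOn, ← Measure.prod_restrict, Measure.restrict_univ]
      exact hI.mono_measure (Measure.prod_mono
        (Measure.restrict_mono Ioc_subset_Icc_self le_rfl) le_rfl)
  have e : Real.circleAverage (fun w => ∫ y, ρ y * g w y ∂μ) c R =
      ∫ y, ρ y * Real.circleAverage (fun w => g w y) c R ∂μ := by
    simp only [Real.circleAverage_def, smul_eq_mul]
    rw [intervalIntegral_integral_swap hq2, ← integral_const_mul]
    refine integral_congr_ae (ae_of_all _ fun y => ?_)
    show (2 * Real.pi)⁻¹ * ∫ θ in (0 : ℝ)..2 * Real.pi, ρ y * g (circleMap c R θ) y = _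
    rw [intervalIntegral.integral_const_mul]
    ring
  rw [e]
  refine integral_mono (hsupp c) (Continuous.integrable_of_hasCompactSupport ?_ hs.mul_right)
    fun y => ?_
  · refine hρ.mul ?_
    simp only [Real.circleAverage_def, smul_eq_mul]
    exact continuous_const.mul (intervalIntegral.continuous_parametric_intervalIntegral_of_continuous'
      (μ := volume) (f := fun y θ => g (circleMap c R θ) y)
      (hg.comp (((continuous_circleMap c R).comp continuous_snd).prodMk continuous_fst)) _ _)
  · show ρ y * g c y ≤ _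
    rcases (hρ0 y).eq_or_lt with h | h
    · simp [← h]
    · exact mul_le_mul_of_nonneg_left (hsub y (subset_tsupport _ (Function.mem_support.2 h.ne'))) h.le

end Vale.Agent.P296
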