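import Vale.Agent.P296.Analysis.HermitianForm

/-!
# P296: the parallelogram law gives a Hermitian form
-/

noncomputable section

namespace Vale.Agent.P296.Analysis

open scoped ComplexConjugate

universe u

variable {V : Type u} [AddCommGroup V] [Module ℂ V]

/-- An additive function bounded near zero is linear. -/
lemma linear_of_additive {φ : ℝ → ℝ} (hadd : ∀ s t, φ (s + t) = φ s + φ t) {C : ℝ}
    (hC : ∀ t, |t| ≤ 1 → |φ t| ≤ C) (t : ℝ) : φ t = t * φ 1 := by
  have h0 : φ 0 = 0 := by linarith [show φ 0 = φ 0 + φ 0 by simpa using hadd 0 0]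
  let f : ℝ →+ ℝ := { toFun := φ, map_zero' := h0, map_add' := hadd }
  set D := C + |φ 1|
  have hψ : ∀ s, |φ s - s * φ 1| ≤ D := fun s => by
    have e : φ s - s * φ 1 = φ (Int.fract s) - Int.fract s * φ 1 := by
      have h1 : φ (⌊s⌋ : ℝ) = (⌊s⌋ : ℝ) * φ 1 := by
        simpa [f, zsmul_eq_mul] using map_zsmul f ⌊s⌋ (1 : ℝ)
      conv_lhs => rw [← Int.floor_add_fract s, hadd, h1]
      ring
    rw [e]
    have hf : |Int.fract s| ≤ 1 := by
      rw [abs_of_nonneg (Int.fract_nonneg s)]; exact (Int.fract_lt_one s).le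
    refine (abs_sub _ _).trans (add_le_add (hC _ hf) ?_)
    rw [abs_mul]
    exact mul_le_of_le_one_left (abs_nonneg _) hf
  have key : ∀ n : ℕ, (n : ℝ) * |φ t - t * φ 1| ≤ D := fun n => by
    have h1 : φ ((n : ℝ) * t) = n * φ t := by simpa [f, nsmul_eq_mul] using map_nsmul f n t
    have h2 := hψ (n * t)
    rwa [h1, mul_assoc, ← mul_sub, abs_mul, Nat.abs_cast] at h2
  by_contra hne
  obtain ⟨n, hn⟩ := exists_nat_gt (D / |φ t - t * φ 1|)
  rw [div_lt_iff₀ (abs_pos.2 (sub_ne_zero.2 hne))] at hn
  linarith [key n]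

/-- A nonnegative function with the parallelogram law and complex homogeneity is a square. -/
theorem isHermSq_of_parallelogram {q : V → ℝ} (h0 : ∀ v, 0 ≤ q v)
    (hs : ∀ (c : ℂ) v, q (c • v) = ‖c‖ ^ 2 * q v)
    (hp : ∀ v w, q (v + w) + q (v - w) = 2 * q v + 2 * q w) : IsHermSq q := by
  set R : V → V → ℝ := fun v w => (q (v + w) - q (v - w)) / 4 with hR
  have hneg : ∀ v, q (-v) = q v := fun v => by simpa using hs (-1) v
  have hI : ∀ v, q (Complex.I • v) = q v := fun v => by simpa using hs Complex.I v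
  have hpol : ∀ v w, pol q v w = (R v w : ℂ) - Complex.I * (R v (Complex.I • w) : ℂ) := fun v w => by
    simp only [pol, hR]; push_cast; ring
  have hmid : ∀ u v w, R u (v + w) + R u (v - w) = 2 * R u v := fun u v w => by
    have h1 := hp (u + v) w
    have h2 := hp (u - v) w
    simp only [hR, show u + (v + w) = u + v + w by abel, show u + (v - w) = u + v - w by abel,
      show u - (v + w) = u - v - w by abel, show u - (v - w) = u - v + w by abel]
    linarith
  have hdbl : ∀ u v, R u (v + v) = 2 * R u v := fun u v => by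
    have h1 := hmid u v v
    have h2 : R u 0 = 0 := by simp [hR]
    rw [sub_self, h2, add_zero] at h1
    exact h1
  have hadd : ∀ u a b, R u (a + b) = R u a + R u b := fun u a b => by
    set v := (2⁻¹ : ℂ) • (a + b)
    set w := (2⁻¹ : ℂ) • (a - b)
    have e1 : v + w = a := by
      simp only [v, w, smul_add, smul_sub]
      rw [show (2⁻¹ : ℂ) • a + (2⁻¹ : ℂ) • b + ((2⁻¹ : ℂ) • a - (2⁻¹ : ℂ) • b)
        = ((2⁻¹ : ℂ) + 2⁻¹) • a by rw [add_smul]; abel]
      norm_num
    have e2 : v - w = b := by
      simp only [v, w, smul_add, smul_sub]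
      rw [show (2⁻¹ : ℂ) • a + (2⁻¹ : ℂ) • b - ((2⁻¹ : ℂ) • a - (2⁻¹ : ℂ) • b)
        = ((2⁻¹ : ℂ) + 2⁻¹) • b by rw [add_smul]; abel]
      norm_num
    have e3 : v + v = a + b := by
      simp only [v]; rw [← add_smul]; norm_num
    have h1 := hmid u v w
    rw [e1, e2, ← hdbl, e3] at h1
    exact h1.symm
  have hnr : ∀ u v, R u (-v) = -R u v := fun u v => by
    simp only [hR, sub_neg_eq_add, ← sub_eq_add_neg]; ring
  have hlin : ∀ u v (t : ℝ), R u ((t : ℂ) • v) = t * R u v := fun u v t => by
    have h1 := linear_of_additive (φ := fun t : ℝ => R u ((t : ℂ) • v))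
      (fun s t => by simp only [Complex.ofReal_add, add_smul, hadd])
      (C := (q u + q v) / 2) (fun s hs1 => by
        have hb := hp u ((s : ℂ) • v)
        have h2 : q ((s : ℂ) • v) ≤ q v := by
          rw [hs, Complex.norm_real, Real.norm_eq_abs]
          exact mul_le_of_le_one_left (h0 v) (pow_le_one₀ (abs_nonneg s) hs1)
        have h3 := h0 (u + (s : ℂ) • v)
        have h4 := h0 (u - (s : ℂ) • v)
        simp only [hR]
        rw [abs_le]
        constructor <;> linarith) t
    simpa using h1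
  have hII : ∀ u v, R (Complex.I • u) (Complex.I • v) = R u v := fun u v => by
    simp only [hR, ← smul_add, ← smul_sub, hI]
  have hsym : ∀ u v, R v u = R u v := fun u v => by
    simp only [hR, add_comm v u]
    rw [show v - u = -(u - v) by abel, hneg]
  have hanti : ∀ u v, R v (Complex.I • u) = -R u (Complex.I • v) := fun u v => by
    rw [hsym, ← hII, smul_smul, Complex.I_mul_I, neg_one_smul, hsym (Complex.I • v) (-u), hnr,
      hsym u]
  refine ⟨fun u v w => ?_, fun c u v => ?_, fun u v => ?_, fun v => ?_⟩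
  · simp only [hpol, smul_add, hadd]; push_cast; ring
  · have e : c • v = (c.re : ℂ) • v + (c.im : ℂ) • (Complex.I • v) := by
      rw [smul_smul, ← add_smul, Complex.re_add_im]
    have e' : Complex.I • c • v = (c.re : ℂ) • (Complex.I • v) + ((-c.im : ℝ) : ℂ) • v := by
      rw [smul_smul, smul_smul, ← add_smul]
      congr 1
      conv_lhs => rw [← Complex.re_add_im c]
      push_cast
      linear_combination (c.im : ℂ) * Complex.I_mul_I
    simp only [hpol]
    rw [e', e, hadd, hadd, hlin, hlin, hlin, hlin]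
    apply Complex.ext <;> simp <;> ring
  · rw [hpol, hpol, hsym, hanti]
    apply Complex.ext <;> simp
  · have h1 : R v v = q v := by
      simp only [hR, sub_self, ← two_smul ℂ v, hs, show q 0 = 0 by simpa using hs 0 (0 : V)]
      norm_num
    have h2 : R v (Complex.I • v) = 0 := by linarith [hanti v v]
    rw [hpol, h1, h2]
    simp

end Vale.Agent.P296.Analysis
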