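import Vale.Agent.P296.Analysis.Limit

/-!
# P296: the upper relaxed limit of almost plurisubharmonic functions

For a locally bounded sequence of continuous nonnegative functions which are sub-mean along
holomorphic discs up to an error tending to zero, the upper relaxed limit is upper semicontinuous
and sub-mean along holomorphic discs. It does not depend on coordinates. If the functions are
quadratic forms in a second variable, then a subsequence makes it one as well, in a way that
persists for all further subsequences.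
-/

noncomputable section

namespace Vale.Agent.P296

open Filter Topology MeasureTheory Metric Set Real

variable {P : Type*} [NormedAddCommGroup P]

/-- The upper relaxed limit: the limsup over large indices and nearby points. -/
def upperLim (G : ℕ → P → ℝ) (p : P) : ℝ :=
  limsup (fun q : ℕ × P => G q.1 q.2) (atTop ×ˢ 𝓝 p)

/-- A locally bounded, nonnegative, continuous sequence, sub-mean along holomorphic discs up to an
error tending to zero. -/
structure AlmostPsh [NormedSpace ℂ P] (G : ℕ → P → ℝ) : Prop where
  cont : ∀ n, Continuous (G n)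
  nonneg : ∀ n p, 0 ≤ G n p
  bound : ∀ K, IsCompact K → ∃ C, ∀ n, ∀ p ∈ K, G n p ≤ C
  submean : ∀ K, IsCompact K → ∀ δ > 0, ∀ᶠ n in atTop, ∀ (γ : ℂ → P) (c : ℂ) (R : ℝ), 0 < R →
    DiffContOnCl ℂ γ (ball c R) → MapsTo γ (closedBall c R) K →
      G n (γ c) ≤ circleAverage (fun z => G n (γ z)) c R + δ

/-- The limit is independent of coordinates. -/
theorem upperLim_congr {P' : Type*} [NormedAddCommGroup P'] {G : ℕ → P → ℝ} {G' : ℕ → P' → ℝ}
    {T : P → P'} {p : P} (hT : map T (𝓝 p) = 𝓝 (T p))
    (heq : ∀ᶠ q in atTop ×ˢ 𝓝 p, G' q.1 (T q.2) = G q.1 q.2) :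
    upperLim G' (T p) = upperLim G p := by
  have hmap : (atTop ×ˢ 𝓝 (T p) : Filter (ℕ × P')) = map (Prod.map id T) (atTop ×ˢ 𝓝 p) := by
    rw [← prod_map_map_eq', map_id, hT]
  rw [upperLim, upperLim, hmap, ← limsup_comp]
  exact limsup_congr heq

namespace AlmostPsh

variable [NormedSpace ℂ P] [FiniteDimensional ℂ P] {G : ℕ → P → ℝ}

omit [FiniteDimensional ℂ P] in
/-- Subsequences are again almost psh. -/
theorem comp (h : AlmostPsh G) {φ : ℕ → ℕ} (hφ : StrictMono φ) : AlmostPsh fun n => G (φ n) where
  cont n := h.cont (φ n)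
  nonneg n := h.nonneg (φ n)
  bound K hK := (h.bound K hK).imp fun _ hC n => hC (φ n)
  submean K hK δ hδ := hφ.tendsto_atTop.eventually (h.submean K hK δ hδ)

omit [FiniteDimensional ℂ P] in
/-- Exactly sub-mean after multiplication by weights tending to one gives almost psh. -/
theorem of_weight {a : ℕ → P → ℝ} (hcont : ∀ n, Continuous (G n)) (hnn : ∀ n p, 0 ≤ G n p)
    (hbound : ∀ K, IsCompact K → ∃ C, ∀ n, ∀ p ∈ K, G n p ≤ C) (ha : ∀ n, Continuous (a n))
    (ha1 : ∀ K, IsCompact K → ∀ δ > 0, ∀ᶠ n in atTop, ∀ p ∈ K, |a n p - 1| ≤ δ)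
    (hsub : ∀ n (γ : ℂ → P) (c : ℂ) (R : ℝ), 0 < R → DiffContOnCl ℂ γ (ball c R) →
      G n (γ c) * a n (γ c) ≤ circleAverage (fun z => G n (γ z) * a n (γ z)) c R) :
    AlmostPsh G := by
  refine ⟨hcont, hnn, hbound, fun K hK δ hδ => ?_⟩
  obtain ⟨C, hC⟩ := hbound K hK
  have hC' : 0 < 2 * |C| + 1 := by positivity
  filter_upwards [ha1 K hK (δ / (2 * |C| + 1)) (div_pos hδ hC')] with n hn γ c R hR hγ hmaps
  set η := δ / (2 * |C| + 1)
  have hη : (2 * |C|) * η ≤ δ := by
    have : (2 * |C| + 1) * η = δ := mul_div_cancel₀ _ hC'.ne'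
    nlinarith [div_pos hδ hC']
  have hsmall : ∀ z ∈ closedBall c R, |G n (γ z) * a n (γ z) - G n (γ z)| ≤ |C| * η := fun z hz => by
    rw [← mul_sub_one, abs_mul, abs_of_nonneg (hnn n _)]
    exact mul_le_mul ((hC n _ (hmaps hz)).trans (le_abs_self C)) (hn _ (hmaps hz)) (abs_nonneg _)
      (abs_nonneg _)
  have hcirc : ∀ θ, circleMap c R θ ∈ closedBall c R := fun θ =>
    sphere_subset_closedBall (circleMap_mem_sphere c hR.le θ)
  have hθ : Continuous fun θ => γ (circleMap c R θ) := by
    refine ContinuousOn.comp_continuous ?_ (continuous_circleMap c R) hcirc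
    rw [← closure_ball c hR.ne']
    exact hγ.continuousOn
  have h1 : circleAverage (fun z => G n (γ z) * a n (γ z)) c R ≤
      circleAverage (fun z => G n (γ z) + |C| * η) c R := by
    refine circleAverage_mono
      ((((hcont n).comp hθ).mul ((ha n).comp hθ)).intervalIntegrable _ _)
      ((((hcont n).comp hθ).add continuous_const).intervalIntegrable _ _) fun z hz => ?_
    rw [abs_of_pos hR] at hz
    linarith [(abs_le.1 (hsmall z (sphere_subset_closedBall hz))).2]
  have hint : CircleIntegrable (fun z => G n (γ z)) c R :=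
    ((hcont n).comp hθ).intervalIntegrable _ _
  rw [circleAverage_fun_add hint (circleIntegrable_const _ c R), circleAverage_const] at h1
  linarith [hsub n γ c R hR hγ, (abs_le.1 (hsmall c (mem_closedBall_self hR.le))).1]

theorem isBoundedUnder (h : AlmostPsh G) (p : P) :
    IsBoundedUnder (· ≤ ·) (atTop ×ˢ 𝓝 p) (fun q : ℕ × P => G q.1 q.2) := by
  have := FiniteDimensional.proper ℂ P
  obtain ⟨C, hC⟩ := h.bound _ (isCompact_closedBall p 1)
  refine ⟨C, eventually_map.2 ?_⟩
  filter_upwards [tendsto_snd.eventually (closedBall_mem_nhds p one_pos)] with q hq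
  exact hC q.1 q.2 hq

omit [FiniteDimensional ℂ P] in
theorem isCoboundedUnder (h : AlmostPsh G) (p : P) :
    IsCoboundedUnder (· ≤ ·) (atTop ×ˢ 𝓝 p) (fun q : ℕ × P => G q.1 q.2) :=
  isCoboundedUnder_le_of_le _ fun q : ℕ × P => h.nonneg q.1 q.2

omit [FiniteDimensional ℂ P] in
/-- An eventual bound near a point bounds the limit there. -/
theorem upperLim_le (h : AlmostPsh G) {p : P} {b : ℝ}
    (hb : ∀ᶠ q in atTop ×ˢ 𝓝 p, G q.1 q.2 ≤ b) : upperLim G p ≤ b :=
  limsup_le_of_le (h.isCoboundedUnder p) hb

/-- Values along a sequence of points bound the limit from below. -/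
theorem le_upperLim (h : AlmostPsh G) {p : P} {a : ℝ} {n : ℕ → ℕ} {x : ℕ → P}
    (hn : Tendsto n atTop atTop) (hx : Tendsto x atTop (𝓝 p))
    (ha : ∀ᶠ k in atTop, a ≤ G (n k) (x k)) : a ≤ upperLim G p :=
  le_limsup_of_frequently_le (((hn.prodMk hx).frequently ha.frequently)) (h.isBoundedUnder p)

/-- The limit is attained along a sequence. -/
theorem exists_seq (h : AlmostPsh G) (p : P) :
    ∃ (n : ℕ → ℕ) (x : ℕ → P), Tendsto n atTop atTop ∧ Tendsto x atTop (𝓝 p) ∧
      Tendsto (fun k => G (n k) (x k)) atTop (𝓝 (upperLim G p)) := by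
  obtain ⟨s, hs, hsf⟩ := exists_seq_tendsto_limsup (u := fun q : ℕ × P => G q.1 q.2)
    (f := atTop ×ˢ 𝓝 p) (hc := h.isCoboundedUnder p) (hb := h.isBoundedUnder p)
  exact ⟨fun k => (s k).1, fun k => (s k).2, tendsto_fst.comp hsf, tendsto_snd.comp hsf, hs⟩

theorem upperLim_nonneg (h : AlmostPsh G) (p : P) : 0 ≤ upperLim G p :=
  h.le_upperLim tendsto_id (tendsto_const_nhds (x := p)) (Eventually.of_forall fun k => h.nonneg k p)

theorem eventually_lt (h : AlmostPsh G) {p : P} {b : ℝ} (hb : upperLim G p < b) :
    ∀ᶠ q in atTop ×ˢ 𝓝 p, G q.1 q.2 < b :=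
  eventually_lt_of_limsup_lt hb (h.isBoundedUnder p)

/-- The limit is upper semicontinuous. -/
theorem upperSemicontinuous (h : AlmostPsh G) : UpperSemicontinuous (upperLim G) := by
  intro p y hy
  obtain ⟨y', hy1, hy2⟩ := exists_between hy
  obtain ⟨N, hN, U, hU, hNU⟩ := eventually_prod_iff.1 (h.eventually_lt hy1)
  filter_upwards [eventually_eventually_nhds.2 hU] with q hq
  exact (h.upperLim_le ((hN.prod_mk hq).mono fun z hz => (hNU hz.1 hz.2).le)).trans_lt hy2

omit [FiniteDimensional ℂ P] in
theorem upperLim_le_of_bound (h : AlmostPsh G) {K : Set P} {C : ℝ} {p : P} (hp : K ∈ 𝓝 p)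
    (hC : ∀ n, ∀ q ∈ K, G n q ≤ C) : upperLim G p ≤ C :=
  h.upperLim_le ((tendsto_snd.eventually hp).mono fun q hq => hC q.1 q.2 hq)

/-- The limit is integrable on circles. -/
theorem circleIntegrable (h : AlmostPsh G) {γ : ℂ → P} {c : ℂ} {R : ℝ} (hR : 0 ≤ R)
    (hγ : ContinuousOn γ (closedBall c R)) :
    CircleIntegrable (fun z => upperLim G (γ z)) c R := by
  have := FiniteDimensional.proper ℂ P
  have hθ : Continuous fun θ => γ (circleMap c R θ) :=
    hγ.comp_continuous (continuous_circleMap c R) fun θ =>
      sphere_subset_closedBall (circleMap_mem_sphere c hR θ)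
  have hK : IsCompact (γ '' closedBall c R) := (isCompact_closedBall c R).image_of_continuousOn hγ
  obtain ⟨C, hC⟩ := h.bound _ (hK.cthickening (r := 1))
  rw [CircleIntegrable, intervalIntegrable_iff_integrableOn_Icc_of_le (by positivity)]
  refine Measure.integrableOn_of_bounded (M := C) measure_Icc_lt_top.ne
    ((h.upperSemicontinuous.comp hθ).measurable.aestronglyMeasurable) (ae_of_all _ fun θ => ?_)
  rw [Real.norm_eq_abs, abs_of_nonneg (h.upperLim_nonneg _)]
  exact h.upperLim_le_of_bound (mem_of_superset (closedBall_mem_nhds _ one_pos)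
    (closedBall_subset_cthickening (mem_image_of_mem γ
      (sphere_subset_closedBall (circleMap_mem_sphere c hR θ))) 1)) hC

/-- The limit is sub-mean along holomorphic discs. -/
theorem submean_upperLim (h : AlmostPsh G) {γ : ℂ → P} {c : ℂ} {R : ℝ} (hR : 0 < R)
    (hγ : DiffContOnCl ℂ γ (ball c R)) :
    upperLim G (γ c) ≤ circleAverage (fun z => upperLim G (γ z)) c R := by
  have := FiniteDimensional.proper ℂ P
  set L := upperLim G
  obtain ⟨n, x, hn, hx, hlim⟩ := h.exists_seq (γ c)
  have hγc : ContinuousOn γ (closedBall c R) := by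
    rw [← closure_ball c hR.ne']
    exact hγ.continuousOn
  have hK : IsCompact (cthickening 1 (γ '' closedBall c R)) :=
    ((isCompact_closedBall c R).image_of_continuousOn hγc).cthickening
  obtain ⟨C, hC⟩ := h.bound _ hK
  have hmem : ∀ᶠ k in atTop, ∀ z ∈ closedBall c R,
      γ z + (x k - γ c) ∈ cthickening 1 (γ '' closedBall c R) := by
    filter_upwards [hx.eventually (closedBall_mem_nhds (γ c) one_pos)] with k hk z hz
    refine closedBall_subset_cthickening (mem_image_of_mem γ hz) 1 ?_
    rw [mem_closedBall_iff_norm, add_sub_cancel_left]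
    exact mem_closedBall_iff_norm.1 hk
  set H : ℕ → ℝ → ℝ := fun k θ => G (n k) (γ (circleMap c R θ) + (x k - γ c))
  set m : ℕ → ℝ → ℝ := fun k θ => max (H k θ - L (γ (circleMap c R θ))) 0
  have hcirc : ∀ θ, circleMap c R θ ∈ closedBall c R := fun θ =>
    sphere_subset_closedBall (circleMap_mem_sphere c hR.le θ)
  have hθ : Continuous fun θ => γ (circleMap c R θ) :=
    hγc.comp_continuous (continuous_circleMap c R) hcirc
  have hH : ∀ k, Continuous (H k) := fun k => (h.cont (n k)).comp (hθ.add continuous_const)
  have hLm : Measurable fun θ => L (γ (circleMap c R θ)) :=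
    (h.upperSemicontinuous.comp hθ).measurable
  have hm0 : Tendsto (fun k => ∫ θ in (0 : ℝ)..2 * π, m k θ) atTop (𝓝 0) := by
    suffices h0 : Tendsto (fun k => ∫ θ in (0 : ℝ)..2 * π, m k θ) atTop
        (𝓝 (∫ θ in (0 : ℝ)..2 * π, (0 : ℝ))) by simpa using h0
    refine intervalIntegral.tendsto_integral_filter_of_dominated_convergence (fun _ => max C 0)
      ?_ ?_ ?_ ?_
    · exact Eventually.of_forall fun k =>
        (((hH k).measurable.sub hLm).max measurable_const).aestronglyMeasurable
    · filter_upwards [hmem] with k hk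
      refine ae_of_all _ fun θ _ => ?_
      rw [Real.norm_eq_abs, abs_of_nonneg (le_max_right _ _)]
      refine max_le ((sub_le_self _ (h.upperLim_nonneg _)).trans ?_) (le_max_right _ _)
      exact (hC _ _ (hk _ (hcirc θ))).trans (le_max_left _ _)
    · exact intervalIntegrable_const
    · refine ae_of_all _ fun θ _ => Metric.tendsto_nhds.2 fun δ hδ => ?_
      have hp : Tendsto (fun k => γ (circleMap c R θ) + (x k - γ c)) atTop
          (𝓝 (γ (circleMap c R θ))) := by
        simpa using tendsto_const_nhds.add (hx.sub_const (γ c))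
      filter_upwards [(hn.prodMk hp).eventually
        (h.eventually_lt (lt_add_of_pos_right (L (γ (circleMap c R θ))) hδ))] with k hk
      rw [Real.dist_eq, sub_zero, abs_of_nonneg (le_max_right _ _)]
      exact max_lt (by simp only [H]; linarith) hδ
  refine le_of_forall_pos_le_add fun δ hδ => ?_
  have hev : ∀ᶠ k in atTop, G (n k) (x k) ≤
      circleAverage (fun z => L (γ z)) c R + (2 * π)⁻¹ * (∫ θ in (0 : ℝ)..2 * π, m k θ) + δ := by
    filter_upwards [hmem, hn.eventually (h.submean _ hK δ hδ)] with k hk hk'
    have h1 := hk' (fun z => γ z + (x k - γ c)) c R hR (hγ.add_const _) fun z hz => hk z hz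
    simp only [add_sub_cancel] at h1
    refine h1.trans (add_le_add_left ?_ δ)
    simp only [circleAverage_def, smul_eq_mul, ← mul_add]
    have hiL : IntervalIntegrable (fun θ => L (γ (circleMap c R θ))) volume 0 (2 * π) :=
      h.circleIntegrable hR.le hγc
    have hd := ((hH k).intervalIntegrable (μ := volume) 0 (2 * π)).sub hiL
    have him : IntervalIntegrable (m k) volume 0 (2 * π) := ⟨hd.1.pos_part, hd.2.pos_part⟩
    rw [← intervalIntegral.integral_add hiL him]
    refine mul_le_mul_of_nonneg_left (intervalIntegral.integral_mono (by positivity)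
      ((hH k).intervalIntegrable _ _) (hiL.add him) fun θ => ?_) (by positivity)
    linarith [le_max_left (H k θ - L (γ (circleMap c R θ))) 0]
  simpa using le_of_tendsto_of_tendsto hlim
    ((tendsto_const_nhds.add (hm0.const_mul (2 * π)⁻¹)).add_const δ) hev

variable [MeasurableSpace P] [BorelSpace P] (μ : Measure P) [μ.IsAddHaarMeasure]

omit [FiniteDimensional ℂ P] in
/-- Cone kernels of radius `1/(m+1)`, of total mass one. -/
def kernel (m : ℕ) (y : P) : ℝ :=
  max ((m + 1 : ℝ)⁻¹ - ‖y‖) 0 / ∫ z, max ((m + 1 : ℝ)⁻¹ - ‖z‖) 0 ∂μ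

omit [μ.IsAddHaarMeasure] [FiniteDimensional ℂ P] [BorelSpace P] [NormedSpace ℂ P] in
theorem kernel_nonneg (m : ℕ) (y : P) : 0 ≤ kernel μ m y :=
  div_nonneg (le_max_right _ _) (integral_nonneg fun _ => le_max_right _ _)

omit [μ.IsAddHaarMeasure] [FiniteDimensional ℂ P] [BorelSpace P] [NormedSpace ℂ P] in
theorem continuous_kernel (m : ℕ) : Continuous (kernel μ m) :=
  ((continuous_const.sub continuous_norm).max continuous_const).div_const _

omit [μ.IsAddHaarMeasure] [FiniteDimensional ℂ P] [BorelSpace P] [NormedSpace ℂ P] in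
theorem norm_le_of_kernel_ne (m : ℕ) {y : P} (h : kernel μ m y ≠ 0) : ‖y‖ ≤ (m + 1 : ℝ)⁻¹ :=
  le_of_not_gt fun hlt => h (by rw [kernel, max_eq_right (by linarith), zero_div])

omit [μ.IsAddHaarMeasure] [BorelSpace P] in
theorem hasCompactSupport_kernel (m : ℕ) : HasCompactSupport (kernel μ m) := by
  have := FiniteDimensional.proper ℂ P
  exact HasCompactSupport.intro (isCompact_closedBall 0 (m + 1 : ℝ)⁻¹) fun y hy =>
    by_contra fun h => hy (mem_closedBall_zero_iff.2 (norm_le_of_kernel_ne μ m h))

theorem integral_kernel (m : ℕ) : ∫ y, kernel μ m y ∂μ = 1 := by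
  have := FiniteDimensional.proper ℂ P
  set f : P → ℝ := fun y => max ((m + 1 : ℝ)⁻¹ - ‖y‖) 0
  have hf : Continuous f := (continuous_const.sub continuous_norm).max continuous_const
  have hs : HasCompactSupport f := HasCompactSupport.intro (isCompact_closedBall 0 (m + 1 : ℝ)⁻¹)
    fun y hy => max_eq_right (by rw [mem_closedBall_zero_iff] at hy; linarith [not_le.1 hy])
  have : 0 < ∫ y, f y ∂μ := hf.integral_pos_of_hasCompactSupport_nonneg_nonzero hs
    (fun y => le_max_right _ _) (x := 0) (ne_of_gt (lt_max_of_lt_left (by simp; positivity)))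
  exact (integral_div _ f).trans (div_self this.ne')

/-- The mollification of the `n`-th function. -/
def avg (G : ℕ → P → ℝ) (m n : ℕ) (p : P) : ℝ := ∫ y, kernel μ m y * G n (p + y) ∂μ

omit [FiniteDimensional ℂ P] [NormedSpace ℂ P] in
theorem avg_eq_mollify (m n : ℕ) (p : P) : avg μ G m n p = mollify μ (kernel μ m) (G n) p := by
  rw [avg, mollify, ← integral_add_left_eq_self (μ := μ) (fun y => kernel μ m (y - p) • G n y) p]
  simp [smul_eq_mul]

omit [BorelSpace P] [μ.IsAddHaarMeasure] in
theorem integrable_kernel_mul [IsFiniteMeasureOnCompacts μ] [OpensMeasurableSpace P] (m : ℕ)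
    {g : P → ℝ} (hg : Continuous g) : Integrable (fun y => kernel μ m y * g y) μ :=
  ((continuous_kernel μ m).mul hg).integrable_of_hasCompactSupport
    (hasCompactSupport_kernel μ m).mul_right

/-- Bounds on the support bound the mollification. -/
theorem avg_le (h : AlmostPsh G) {m n : ℕ} {p : P} {b : ℝ}
    (hb : ∀ y, ‖y‖ ≤ (m + 1 : ℝ)⁻¹ → G n (p + y) ≤ b) : avg μ G m n p ≤ b := by
  calc avg μ G m n p ≤ ∫ y, kernel μ m y * b ∂μ := by
        refine integral_mono (integrable_kernel_mul μ m ((h.cont n).comp (by fun_prop)))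
          (integrable_kernel_mul μ m continuous_const) fun y => ?_
        rcases eq_or_ne (kernel μ m y) 0 with h0 | h0
        · simp [h0]
        · exact mul_le_mul_of_nonneg_left (hb y (norm_le_of_kernel_ne μ m h0)) (kernel_nonneg μ m y)
    _ = b := by rw [integral_mul_const, integral_kernel, one_mul]

/-- Multiplication by a complex number of modulus one preserves Haar measure. -/
theorem measurePreserving_smul {u : ℂ} (hu : ‖u‖ = 1) :
    MeasurePreserving (fun y : P => u • y) μ μ := by
  have := FiniteDimensional.proper ℂ P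
  set f : P →ₗ[ℝ] P := ((u • LinearMap.id : P →ₗ[ℂ] P)).restrictScalars ℝ
  have hfy : ∀ y, f y = u • y := fun y => rfl
  have hu0 : u ≠ 0 := norm_ne_zero_iff.1 (by rw [hu]; exact one_ne_zero)
  have himg : f '' closedBall 0 1 = closedBall 0 1 := by
    ext y
    simp only [mem_image, mem_closedBall_zero_iff, hfy]
    exact ⟨fun ⟨z, hz, e⟩ => by rw [← e, norm_smul, hu, one_mul]; exact hz,
      fun hy => ⟨u⁻¹ • y, by rwa [norm_smul, norm_inv, hu, inv_one, one_mul],
        smul_inv_smul₀ hu0 y⟩⟩
  have hpos : 0 < μ.real (closedBall (0 : P) 1) := by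
    rw [measureReal_def]
    exact ENNReal.toReal_pos (measure_closedBall_pos μ 0 one_pos).ne'
      (isCompact_closedBall (0 : P) 1).measure_lt_top.ne
  have hdet : |LinearMap.det f| = 1 := by
    have h1 := congrArg ENNReal.toReal (Measure.addHaar_image_linearMap μ f (closedBall 0 1))
    rw [himg, ENNReal.toReal_mul, ENNReal.toReal_ofReal (abs_nonneg _)] at h1
    rw [← measureReal_def] at h1
    nlinarith
  refine ⟨(continuous_const_smul u).measurable, ?_⟩
  show Measure.map f μ = μ
  rw [Measure.map_linearMap_addHaar_eq_smul_addHaar μ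
    (fun h0 => by rw [h0, abs_zero] at hdet; exact zero_ne_one hdet), abs_inv, hdet]
  simp

/-- Eventually the functions are below their mollifications, up to a small error. -/
theorem eventually_le_avg (h : AlmostPsh G) (m : ℕ) {K : Set P} (hK : IsCompact K) {δ : ℝ}
    (hδ : 0 < δ) : ∀ᶠ n in atTop, ∀ p ∈ K, G n p ≤ avg μ G m n p + δ := by
  have := FiniteDimensional.proper ℂ P
  filter_upwards [h.submean _ (hK.add (isCompact_closedBall 0 (m + 1 : ℝ)⁻¹)) δ hδ] with n hn p hp
  have hinv : ∀ w ∈ sphere (0 : ℂ) |1|,
      ∫ y, kernel μ m y * (G n (p + w • y) + δ) ∂μ = avg μ G m n p + δ := fun w hw => by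
    have hw1 : ‖w‖ = 1 := by simpa using hw
    have e : ∀ y : P, kernel μ m y * (G n (p + w • y) + δ) =
        (fun y => kernel μ m y * (G n (p + y) + δ)) (w • y) := fun y => by
      simp [kernel, norm_smul, hw1]
    refine ((integral_congr_ae (ae_of_all _ e)).trans
      ((measurePreserving_smul μ hw1).integral_comp
        (Homeomorph.smulOfNeZero w (norm_ne_zero_iff.1 (by rw [hw1]; exact one_ne_zero))
          ).measurableEmbedding (fun y => kernel μ m y * (G n (p + y) + δ)))).trans ?_
    simp only [mul_add]
    refine (integral_add (f := fun y => kernel μ m y * G n (p + y))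
      (g := fun y => kernel μ m y * δ) (integrable_kernel_mul μ m ((h.cont n).comp (by fun_prop)))
      (integrable_kernel_mul μ m continuous_const)).trans ?_
    rw [integral_mul_const, integral_kernel, one_mul, avg]
  calc G n p = ∫ y, kernel μ m y * (fun _ => G n p) y ∂μ := by
        rw [integral_mul_const, integral_kernel, one_mul]
    _ ≤ ∫ y, kernel μ m y * circleAverage (fun w => G n (p + w • y) + δ) 0 1 ∂μ := by
        have hc : Continuous fun y =>
            circleAverage (fun w => G n (p + w • y) + δ) 0 1 := by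
          simp only [circleAverage_def, smul_eq_mul]
          refine continuous_const.mul
            (intervalIntegral.continuous_parametric_intervalIntegral_of_continuous' (μ := volume) ?_ _ _)
          exact ((h.cont n).comp (continuous_const.add
            (((continuous_circleMap 0 1).comp continuous_snd).smul continuous_fst))).add
              continuous_const
        refine integral_mono (integrable_kernel_mul μ m continuous_const)
          (integrable_kernel_mul μ m hc) fun y => ?_
        rcases eq_or_ne (kernel μ m y) 0 with h0 | h0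
        · simp [h0]
        refine mul_le_mul_of_nonneg_left ?_ (kernel_nonneg μ m y)
        have hint : CircleIntegrable (fun w : ℂ => G n (p + w • y)) 0 1 :=
          ((h.cont n).comp (continuous_const.add
            ((continuous_circleMap 0 1).smul continuous_const))).intervalIntegrable _ _
        have h1 := hn (fun w => p + w • y) 0 1 one_pos
          (((differentiable_id.smul_const y).const_add p).diffContOnCl) fun w hw => by
            refine add_mem_add hp (mem_closedBall_zero_iff.2 ?_)
            rw [norm_smul]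
            rw [mem_closedBall_zero_iff] at hw
            exact (mul_le_of_le_one_left (norm_nonneg y) hw).trans (norm_le_of_kernel_ne μ m h0)
        rw [circleAverage_fun_add hint (circleIntegrable_const δ 0 1), circleAverage_const]
        simpa using h1
    _ = circleAverage (fun w => ∫ y, kernel μ m y * (G n (p + w • y) + δ) ∂μ) 0 1 := by
        simp only [circleAverage_def, smul_eq_mul]
        set q : ℝ → P → ℝ := fun θ y => kernel μ m y * (G n (p + circleMap 0 1 θ • y) + δ)
        have hq : Continuous (Function.uncurry q) :=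
          ((continuous_kernel μ m).comp continuous_snd).mul (((h.cont n).comp (continuous_const.add
            (((continuous_circleMap 0 1).comp continuous_fst).smul continuous_snd))).add
              continuous_const)
        have hq2 : Integrable (Function.uncurry q)
            ((volume.restrict (uIoc 0 (2 * π))).prod μ) := by
          have hI : IntegrableOn (Function.uncurry q)
              (Icc 0 (2 * π) ×ˢ tsupport (kernel μ m)) (volume.prod μ) :=
            hq.continuousOn.integrableOn_compact
              (isCompact_Icc.prod (hasCompactSupport_kernel μ m).isCompact)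
          rw [IntegrableOn, ← Measure.prod_restrict] at hI
          rw [uIoc_of_le two_pi_pos.le]
          refine (integrableOn_iff_integrable_of_support_subset
            (s := univ ×ˢ tsupport (kernel μ m)) ?_).1 ?_
          · rintro ⟨θ, y⟩ hy
            exact ⟨mem_univ _, subset_tsupport _ fun h0 => hy (by simp [q, h0])⟩
          · rw [IntegrableOn, ← Measure.prod_restrict, Measure.restrict_univ]
            exact hI.mono_measure (Measure.prod_mono
              (Measure.restrict_mono Ioc_subset_Icc_self le_rfl) le_rfl)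
        rw [intervalIntegral_integral_swap hq2, ← integral_const_mul]
        refine integral_congr_ae (ae_of_all _ fun y => ?_)
        simp only [q]
        rw [intervalIntegral.integral_const_mul]
        ring
    _ = avg μ G m n p + δ := circleAverage_const_on_circle hinv

/-- The mollifications converge at every point, for every radius. -/
def Good (G : ℕ → P → ℝ) : Prop :=
  ∀ m p, ∃ a, Tendsto (fun n => avg μ G m n p) atTop (𝓝 a)

omit [FiniteDimensional ℂ P] [BorelSpace P] [μ.IsAddHaarMeasure] [NormedSpace ℂ P] in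
theorem Good.comp {φ : ℕ → ℕ} (hg : Good μ G) (hφ : StrictMono φ) :
    Good μ fun n => G (φ n) :=
  fun m p => (hg m p).imp fun _ ha => ha.comp hφ.tendsto_atTop

/-- A subsequence is good. -/
theorem exists_good (h : AlmostPsh G) : ∃ φ, StrictMono φ ∧ Good μ fun n => G (φ n) := by
  have := FiniteDimensional.proper ℂ P
  obtain ⟨φ, hφ, H, -, hlim⟩ := exists_mollified_limit (μ := μ) (fun m => kernel μ m)
    (continuous_kernel μ) (hasCompactSupport_kernel μ) h.cont fun K hK =>
      (h.bound K hK).imp fun C hC k y hy => by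
        rw [Real.norm_eq_abs, abs_of_nonneg (h.nonneg k y)]
        exact hC k y hy
  exact ⟨φ, hφ, fun m p => ⟨H m p, (hlim m p).congr fun n =>
    (avg_eq_mollify (G := G) μ m (φ n) p).symm⟩⟩

/-- For a good sequence the limit is the limit of the limits of the mollifications. -/
theorem tendsto_upperLim (h : AlmostPsh G) (p : P) {H : ℕ → ℝ}
    (hH : ∀ m, Tendsto (fun n => avg μ G m n p) atTop (𝓝 (H m))) :
    Tendsto H atTop (𝓝 (upperLim G p)) := by
  have := FiniteDimensional.proper ℂ P
  obtain ⟨n, x, hn, hx, hlim⟩ := h.exists_seq p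
  have hlow : ∀ m, upperLim G p ≤ H m := fun m => by
    refine le_of_forall_pos_le_add fun δ hδ => ?_
    have heq := equicontinuous_mollify (μ := μ) (continuous_kernel μ m)
      (hasCompactSupport_kernel μ m) h.cont fun K hK =>
        (h.bound K hK).imp fun C hC k y hy => by
          rw [Real.norm_eq_abs, abs_of_nonneg (h.nonneg k y)]
          exact hC k y hy
    have hd : Tendsto (fun k => avg μ G m (n k) (x k)) atTop (𝓝 (H m)) := by
      refine Metric.tendsto_nhds.2 fun ε hε => ?_
      filter_upwards [hx.eventually (heq p _ (dist_mem_uniformity (half_pos hε))),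
        ((hH m).comp hn).eventually (ball_mem_nhds _ (half_pos hε))] with k hk hk'
      have h1 := hk (n k)
      simp only [← avg_eq_mollify] at h1
      simp only [Function.comp_apply] at hk'
      rw [dist_comm] at h1
      linarith [dist_triangle (avg μ G m (n k) (x k)) (avg μ G m (n k) p) (H m)]
    refine le_of_tendsto_of_tendsto hlim (hd.add_const δ) ?_
    filter_upwards [hn.eventually (h.eventually_le_avg μ m (isCompact_closedBall p 1) hδ),
      hx.eventually (closedBall_mem_nhds p one_pos)] with k hk hk'
    exact hk _ hk'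
  refine Metric.tendsto_nhds.2 fun ε hε => ?_
  obtain ⟨N, hN, U, hU, hNU⟩ :=
    eventually_prod_iff.1 (h.eventually_lt (lt_add_of_pos_right (upperLim G p) (half_pos hε)))
  obtain ⟨r, hr, hrU⟩ := Metric.eventually_nhds_iff.1 hU
  filter_upwards [(tendsto_inv_atTop_zero.comp (tendsto_natCast_atTop_atTop.atTop_add
    (tendsto_const_nhds (x := (1 : ℝ))))).eventually (gt_mem_nhds hr)] with m hm
  have hup : H m ≤ upperLim G p + ε / 2 := le_of_tendsto (hH m) (hN.mono fun k hk =>
    h.avg_le μ fun y hy => (hNU hk (hrU (by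
      rw [dist_self_add_left]
      exact hy.trans_lt hm))).le)
  rw [Real.dist_eq, abs_of_nonneg (sub_nonneg.2 (hlow m))]
  linarith

/-- Further subsequences of a good sequence have the same limit. -/
theorem upperLim_comp (h : AlmostPsh G) (hg : Good μ G) {φ : ℕ → ℕ} (hφ : StrictMono φ) (p : P) :
    upperLim (fun n => G (φ n)) p = upperLim G p := by
  choose H hH using fun m => hg m p
  exact tendsto_nhds_unique
    ((h.comp hφ).tendsto_upperLim μ p fun m => (hH m).comp hφ.tendsto_atTop)
    (h.tendsto_upperLim μ p hH)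

end AlmostPsh

section Quadratic

variable {E W : Type*} [NormedAddCommGroup E] [NormedSpace ℂ E] [FiniteDimensional ℂ E]
  [NormedAddCommGroup W] [NormedSpace ℂ W] [FiniteDimensional ℂ W]

/-- Nonnegative functions of `(x, w)` which are quadratic forms in `w`. -/
structure FibreQuadratic (Q : E × W → ℝ) : Prop where
  nonneg : ∀ x w, 0 ≤ Q (x, w)
  smul : ∀ x (c : ℂ) w, Q (x, c • w) = ‖c‖ ^ 2 * Q (x, w)
  parallelogram : ∀ x v w, Q (x, v + w) + Q (x, v - w) = 2 * Q (x, v) + 2 * Q (x, w)

omit [FiniteDimensional ℂ W] [FiniteDimensional ℂ E] [NormedSpace ℂ E] [NormedAddCommGroup E] in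
/-- A bound on the closed unit ball of the fibre gives the homogeneous bound. -/
theorem FibreQuadratic.le_mul_norm_sq {Q : E × W → ℝ} (hQ : FibreQuadratic Q) {x : E} {C : ℝ}
    (hC : ∀ w, ‖w‖ ≤ 1 → Q (x, w) ≤ C) (w : W) : Q (x, w) ≤ C * ‖w‖ ^ 2 := by
  rcases eq_or_ne w 0 with rfl | hw
  · simpa using (hQ.smul x 0 (0 : W)).le
  have hn : ‖w‖ ≠ 0 := norm_ne_zero_iff.2 hw
  have e : w = (‖w‖ : ℂ) • ((‖w‖ : ℂ)⁻¹ • w) := (smul_inv_smul₀ (by exact_mod_cast hn) w).symm
  rw [mul_comm C]
  conv_lhs => rw [e, hQ.smul, Complex.norm_real, norm_norm]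
  refine mul_le_mul_of_nonneg_left (hC _ ?_) (sq_nonneg _)
  rw [norm_smul, norm_inv, Complex.norm_real, norm_norm, inv_mul_cancel₀ hn]

namespace AlmostPsh

variable {G : ℕ → E × W → ℝ} [MeasurableSpace (E × W)] [BorelSpace (E × W)]
  (μ : Measure (E × W)) [μ.IsAddHaarMeasure]

/-- The limit of a good sequence of fibrewise quadratic forms is fibrewise quadratic. -/
theorem fibreQuadratic_upperLim (h : AlmostPsh G) (hg : Good μ G)
    (hQ : ∀ n, FibreQuadratic (G n)) : FibreQuadratic (upperLim G) := by
  have := FiniteDimensional.proper ℂ E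
  have := FiniteDimensional.proper ℂ W
  refine ⟨fun x w => h.upperLim_nonneg _, fun x c w => ?_, fun x v w => ?_⟩
  · rcases eq_or_ne c 0 with rfl | hc
    · rw [zero_smul, norm_zero, zero_pow two_ne_zero, zero_mul]
      refine le_antisymm ?_ (h.upperLim_nonneg _)
      obtain ⟨C, hC⟩ := h.bound _ ((isCompact_closedBall x 1).prod (isCompact_closedBall (0 : W) 1))
      refine le_of_forall_pos_le_add fun δ hδ => ?_
      rw [zero_add]
      refine h.upperLim_le ?_
      have hsmall : ∀ᶠ q : E × W in 𝓝 (x, 0), C * ‖q.2‖ ^ 2 ≤ δ :=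
        (Continuous.tendsto (by fun_prop) _).eventually (ge_mem_nhds (by simpa using hδ))
      filter_upwards [tendsto_snd.eventually (hsmall.and
        ((continuous_fst.tendsto _).eventually (closedBall_mem_nhds x one_pos)))] with q hq
      exact ((hQ q.1).le_mul_norm_sq (C := C) (fun u hu => hC q.1 (q.2.1, u)
        ⟨hq.2, mem_closedBall_zero_iff.2 hu⟩) q.2.2).trans hq.1
    set T : E × W ≃ₜ E × W := (Homeomorph.refl E).prodCongr (Homeomorph.smulOfNeZero c hc)
    have hmap : (atTop ×ˢ 𝓝 (x, c • w) : Filter (ℕ × (E × W))) =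
        map (Prod.map id T) (atTop ×ˢ 𝓝 (x, w)) := by
      rw [← prod_map_map_eq', map_id, Homeomorph.map_nhds_eq]
      rfl
    rw [upperLim, upperLim, hmap, ← limsup_comp]
    have e : (fun q : ℕ × (E × W) => G q.1 q.2) ∘ Prod.map id T =
        (fun t => ‖c‖ ^ 2 * t) ∘ fun q : ℕ × (E × W) => G q.1 q.2 :=
      funext fun q => (hQ q.1).smul q.2.1 c q.2.2
    rw [e]
    exact (Monotone.map_limsup_of_continuousAt
      (fun a b hab => mul_le_mul_of_nonneg_left hab (sq_nonneg _)) _
      (continuous_const_mul _).continuousAt (h.isBoundedUnder (x, w))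
      (h.isCoboundedUnder (x, w))).symm
  · choose H hH using hg
    have hlimL : ∀ q, Tendsto (fun m => H m q) atTop (𝓝 (upperLim G q)) := fun q =>
      h.tendsto_upperLim μ q fun m => hH m q
    obtain ⟨C, hC⟩ := h.bound _ ((isCompact_closedBall x 1).prod (isCompact_closedBall (0 : W) 1))
    set D : ℕ → ℝ := fun m =>
      H m (x, v + w) + H m (x, v - w) - 2 * H m (x, v) - 2 * H m (x, w)
    have hkey : ∀ m n,
        |avg μ G m n (x, v + w) + avg μ G m n (x, v - w) - 2 * avg μ G m n (x, v)
          - 2 * avg μ G m n (x, w)| ≤ 2 * (max C 0 * ((m + 1 : ℝ)⁻¹) ^ 2) := by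
      intro m n
      have hi : ∀ z : W, Integrable (fun y => kernel μ m y * G n ((x, z) + y)) μ := fun z =>
        integrable_kernel_mul μ m ((h.cont n).comp (by fun_prop))
      have hi0 : Integrable (fun y => kernel μ m y * G n (x + y.1, y.2)) μ :=
        integrable_kernel_mul μ m ((h.cont n).comp (by fun_prop))
      have hi1 : Integrable (fun y => kernel μ m y * G n (x + y.1, w)) μ :=
        integrable_kernel_mul μ m ((h.cont n).comp (by fun_prop))
      set S : (E × W) ≃L[ℂ] (E × W) :=
        (ContinuousLinearEquiv.refl ℂ E).prodCongr (ContinuousLinearEquiv.neg ℂ (M := W))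
      have hS : MeasurePreserving S μ μ := by
        refine ⟨S.continuous.measurable, ?_⟩
        set f : (E × W) →ₗ[ℝ] E × W := (S.toLinearEquiv.toLinearMap).restrictScalars ℝ
        have hff : f * f = 1 := LinearMap.ext fun y => by simp [f, S]
        have hdet : |LinearMap.det f| = 1 := by
          have := congrArg LinearMap.det hff
          rw [map_mul, map_one] at this
          nlinarith [abs_mul_abs_self (LinearMap.det f), abs_nonneg (LinearMap.det f)]
        show Measure.map f μ = μ
        rw [Measure.map_linearMap_addHaar_eq_smul_addHaar μ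
          (fun h0 => by rw [h0, abs_zero] at hdet; exact zero_ne_one hdet), abs_inv, hdet]
        simp
      have hker : ∀ y : E × W, kernel μ m (S y) = kernel μ m y := fun y => by
        simp [kernel, S, Prod.norm_def]
      have hflip : ∫ y, kernel μ m y * G n (x + y.1, w - y.2) ∂μ = avg μ G m n (x, w) := by
        rw [avg, ← hS.integral_comp S.toHomeomorph.measurableEmbedding
          (fun y => kernel μ m y * G n ((x, w) + y))]
        refine integral_congr_ae (ae_of_all _ fun y => ?_)
        simp only [hker]
        simp [S, sub_eq_add_neg]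
      have hi2 : Integrable (fun y => kernel μ m y * G n (x + y.1, w - y.2)) μ :=
        integrable_kernel_mul μ m ((h.cont n).comp (by fun_prop))
      have e1 : avg μ G m n (x, v + w) + avg μ G m n (x, v - w) - 2 * avg μ G m n (x, v)
          = 2 * ∫ y, kernel μ m y * G n (x + y.1, w) ∂μ := by
        simp only [avg]
        rw [← integral_const_mul, ← integral_const_mul]
        refine ((congrArg (· - _) (integral_add (hi (v + w)) (hi (v - w))).symm).trans
          (integral_sub ((hi (v + w)).add (hi (v - w))) ((hi v).const_mul 2)).symm).trans ?_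
        refine integral_congr_ae (ae_of_all _ fun y => ?_)
        have hz : ∀ z : W, (x, z) + y = (x + y.1, z + y.2) := fun z => rfl
        simp only [hz, Pi.add_apply]
        have := (hQ n).parallelogram (x + y.1) (v + y.2) w
        rw [add_right_comm v w y.2, sub_add_eq_add_sub v w y.2]
        linear_combination kernel μ m y * this
      have e2 : avg μ G m n (x, w) + avg μ G m n (x, w) =
          2 * (∫ y, kernel μ m y * G n (x + y.1, w) ∂μ) +
            2 * ∫ y, kernel μ m y * G n (x + y.1, y.2) ∂μ := by
        conv_lhs => arg 2; rw [← hflip]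
        simp only [avg]
        rw [← integral_const_mul, ← integral_const_mul, ← integral_add (hi _) hi2,
          ← integral_add (hi1.const_mul 2) (hi0.const_mul 2)]
        refine integral_congr_ae (ae_of_all _ fun y => ?_)
        have := (hQ n).parallelogram (x + y.1) w y.2
        have hz : ∀ z : W, (x, z) + y = (x + y.1, z + y.2) := fun z => rfl
        simp only [hz]
        linear_combination kernel μ m y * this
      have h0 : 0 ≤ ∫ y, kernel μ m y * G n (x + y.1, y.2) ∂μ :=
        integral_nonneg fun y => mul_nonneg (kernel_nonneg μ m y) (h.nonneg n _)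
      have h1 : ∫ y, kernel μ m y * G n (x + y.1, y.2) ∂μ ≤
          max C 0 * ((m + 1 : ℝ)⁻¹) ^ 2 := by
        calc _ ≤ ∫ y, kernel μ m y * (max C 0 * ((m + 1 : ℝ)⁻¹) ^ 2) ∂μ := by
              refine integral_mono hi0 (integrable_kernel_mul μ m continuous_const) fun y => ?_
              rcases eq_or_ne (kernel μ m y) 0 with hy | hy
              · simp [hy]
              refine mul_le_mul_of_nonneg_left ?_ (kernel_nonneg μ m y)
              have hy1 := norm_le_of_kernel_ne μ m hy
              have hr1 : (m + 1 : ℝ)⁻¹ ≤ 1 := inv_le_one_of_one_le₀ (by linarith [m.cast_nonneg (α := ℝ)])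
              refine ((hQ n).le_mul_norm_sq (C := max C 0) (fun u hu =>
                (hC n (x + y.1, u) ⟨?_, mem_closedBall_zero_iff.2 hu⟩).trans (le_max_left _ _))
                y.2).trans ?_
              · rw [mem_closedBall_iff_norm, add_sub_cancel_left]
                exact ((le_max_left _ _).trans hy1).trans hr1
              · exact mul_le_mul_of_nonneg_left
                  (pow_le_pow_left₀ (norm_nonneg _) ((le_max_right _ _).trans hy1) 2)
                  (le_max_right _ _)
          _ = _ := by rw [integral_mul_const, integral_kernel, one_mul]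
      rw [abs_le]
      constructor <;> linarith [mul_nonneg (le_max_right C 0) (sq_nonneg (m + 1 : ℝ)⁻¹)]
    have hD : ∀ m, |D m| ≤ 2 * (max C 0 * ((m + 1 : ℝ)⁻¹) ^ 2) := fun m =>
      le_of_tendsto' ((((hH m _).add (hH m _)).sub ((hH m _).const_mul 2)).sub
        ((hH m _).const_mul 2)).abs (hkey m)
    have hb0 : Tendsto (fun m : ℕ => 2 * (max C 0 * ((m + 1 : ℝ)⁻¹) ^ 2)) atTop (𝓝 0) := by
      have := (((tendsto_inv_atTop_zero.comp (tendsto_natCast_atTop_atTop.atTop_add
        (tendsto_const_nhds (x := (1 : ℝ))))).pow 2).const_mul (max C 0)).const_mul 2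
      simpa using this
    have hD0 : Tendsto D atTop (𝓝 0) := squeeze_zero_norm hD hb0
    have := tendsto_nhds_unique ((((hlimL _).add (hlimL _)).sub ((hlimL _).const_mul 2)).sub
      ((hlimL _).const_mul 2)) hD0
    linarith

end AlmostPsh

end Quadratic

end Vale.Agent.P296
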